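import Vale.Agent.P214.BPIN.Reg

/-!
# P214, Target B, block B4-PIN: the transfer in its final form

`pin_two`: two charts over `T` and `T'`, at the common scale `s`; `wt` is the regraphed second
reference over `T`, `C¹`-close to `w` on `‖p y‖ ≤ s / 4`; the pinching of the first chart at the
point `c` and at the scale `s / 32` is controlled by the one of the second chart at the scale
`s / 16`.
-/

open Set Filter Topology MeasureTheory Metric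
open scoped RealInnerProductSpace ContDiff

set_option linter.all false

namespace Vale.Agent.P214.BPIN

open FV ODE FM BCS

variable {E : Type*} [NormedAddCommGroup E] [InnerProductSpace ℝ E] [FiniteDimensional ℝ E]
  [MeasurableSpace E] [BorelSpace E]

section compare

variable {m : ℕ} {T : Submodule ℝ E} {w : E → E} {ε κ h₁ : ℝ} {G : Set E} {h : ℝ}
  {ν : Measure E} {P : E → E →L[ℝ] E} {z z' : E} {k k' K : ℝ → ℝ} {B t : ℝ}

/-- base position at two centres -/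
lemma aX_div_lt (ht : 0 < t) (hzz : ‖T.starProjection z' - T.starProjection z‖ ≤ t / 4) {Y : E}
    (hlt : aX T w z' Y < t ^ 2) : aX T w z Y / (4 * t) ^ 2 < 1 / 4 := by
  have h1 : ‖bx T z' Y‖ ≤ t := by
    unfold aX XX at hlt
    exact (lt_of_pow_lt_pow_left₀ 2 ht.le hlt).le
  have h2 : ‖bx T z Y‖ ≤ 5 / 4 * t := by
    have e1 : bx T z Y = bx T z' Y + (T.starProjection z' - T.starProjection z) := by
      rw [bx_eq, bx_eq]; abel
    rw [e1]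
    exact (norm_add_le _ _).trans (by linarith)
  rw [div_lt_iff₀ (by positivity)]
  unfold aX XX
  calc ‖bx T z Y‖ ^ 2 ≤ (5 / 4 * t) ^ 2 := by gcongr
    _ < _ := by nlinarith [sq_pos_of_pos ht]

/-- comparison of the kernel heights at two centres -/
theorem HF_le4 (H : Adm T w ε κ h₁) (hC : CylF m T w h₁ G h ν P) (hk : ODEW.KB k k' K B)
    (ht : 0 < t) (hG : BallIn T G z (4 * t))
    (hzz : ‖T.starProjection z' - T.starProjection z‖ ≤ t / 4) :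
    HF m T w z' k ν t ≤ 2 * 4 ^ m * B ^ 3 * HF m T w z k ν (4 * t) := by
  haveI := hC.fin
  have hB1 := hk.one
  have hB0 : 0 ≤ B := by linarith
  have h4t : 0 < 4 * t := by positivity
  have i1 := hC.intg H (hC.gd_HF H h4t.le hG) hk.kern.pk.continuous hk.kern.pk.zero h4t le_rfl
  have hnn : ∀ Y, 0 ≤ k (aX T w z Y / (4 * t) ^ 2) * (vp T w z Y * ‖om T w Y‖ ^ 2) :=
    fun Y => by
      have := H.ref.half_le_vp H.eps_le z Y
      exact mul_nonneg (hk.kern.nonneg _) (by positivity)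
  have key : kI T w z' ν k (fun Y => vp T w z' Y * ‖om T w Y‖ ^ 2) t ≤
      2 * B ^ 3 * kI T w z ν k (fun Y => vp T w z Y * ‖om T w Y‖ ^ 2) (4 * t) := by
    unfold kI
    rw [← integral_const_mul]
    refine integral_mono_of_nonneg (Eventually.of_forall fun Y => ?_) (i1.const_mul _)
      (Eventually.of_forall fun Y => ?_)
    · have := H.ref.half_le_vp H.eps_le z' Y
      exact mul_nonneg (hk.kern.nonneg _) (by positivity)
    · simp only []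
      have hv1 := H.ref.half_le_vp H.eps_le z Y
      have hv2 : vp T w z' Y ≤ 1 := Ref.vp_le_one z' Y
      have hv3 := H.ref.half_le_vp H.eps_le z' Y
      by_cases hc : 1 ≤ aX T w z' Y / t ^ 2
      · rw [hk.kern.pk.zero _ hc, zero_mul]
        exact mul_nonneg (by positivity) (hnn Y)
      · replace hc := not_le.1 hc
        rw [div_lt_one (by positivity)] at hc
        have hs0' : 0 ≤ aX T w z Y / (4 * t) ^ 2 := div_nonneg (aX_nonneg _) (by positivity)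
        have hs1 := aX_div_lt ht hzz hc
        have h1 := hk.Klow _ hs0' hs1
        have h2 := hk.Kk _ hs0'
        have h3 : 1 ≤ B ^ 2 * k (aX T w z Y / (4 * t) ^ 2) := by
          calc (1 : ℝ) ≤ B * K (aX T w z Y / (4 * t) ^ 2) := h1
            _ ≤ B * (B * k (aX T w z Y / (4 * t) ^ 2)) := by gcongr
            _ = _ := by ring
        have h4 : k (aX T w z' Y / t ^ 2) ≤ B := hk.kB _ (div_nonneg (aX_nonneg _) (by positivity))
        have h7 : vp T w z' Y * ‖om T w Y‖ ^ 2 ≤ 2 * (vp T w z Y * ‖om T w Y‖ ^ 2) := by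
          have : vp T w z' Y ≤ 2 * vp T w z Y := by linarith
          calc vp T w z' Y * ‖om T w Y‖ ^ 2 ≤ (2 * vp T w z Y) * ‖om T w Y‖ ^ 2 := by gcongr
            _ = _ := by ring
        have h8 : 0 ≤ vp T w z Y * ‖om T w Y‖ ^ 2 := by positivity
        have h9 : 0 ≤ vp T w z' Y * ‖om T w Y‖ ^ 2 := by positivity
        calc k (aX T w z' Y / t ^ 2) * (vp T w z' Y * ‖om T w Y‖ ^ 2) ≤
            B * (2 * (vp T w z Y * ‖om T w Y‖ ^ 2)) := by gcongr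
          _ = B * (1 * (2 * (vp T w z Y * ‖om T w Y‖ ^ 2))) := by ring
          _ ≤ B * ((B ^ 2 * k (aX T w z Y / (4 * t) ^ 2)) *
              (2 * (vp T w z Y * ‖om T w Y‖ ^ 2))) := by gcongr
          _ = _ := by ring
  unfold HF
  have e1 : t ^ (-(m : ℤ)) = 4 ^ m * (4 * t) ^ (-(m : ℤ)) := by
    rw [mul_zpow, ← mul_assoc, zpow_neg (4:ℝ), zpow_natCast, mul_inv_cancel₀ (by positivity),
      one_mul]
  have h0 : 0 ≤ (4 * t) ^ (-(m : ℤ)) := by positivity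
  rw [e1]
  calc 4 ^ m * (4 * t) ^ (-(m : ℤ)) * kI T w z' ν k (fun Y => vp T w z' Y * ‖om T w Y‖ ^ 2) t ≤
      4 ^ m * (4 * t) ^ (-(m : ℤ)) * (2 * B ^ 3 *
        kI T w z ν k (fun Y => vp T w z Y * ‖om T w Y‖ ^ 2) (4 * t)) := by gcongr
    _ = _ := by ring

/-- comparison of the tilt energies at two centres -/
theorem gF_le4 (H : Adm T w ε κ h₁) (hC : CylF m T w h₁ G h ν P) (hk : ODEW.KB k k' K B)
    (ht : 0 < t) (hG : BallIn T G z (4 * t)) (hG' : BallIn T G z' t)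
    (hzz : ‖T.starProjection z' - T.starProjection z‖ ≤ t / 4) :
    gF m T w z' K P ν t ≤ 4 ^ m * B ^ 2 * gF m T w z K P ν (4 * t) := by
  haveI := hC.fin
  have hB1 := hk.one
  have hB0 : 0 ≤ B := by linarith
  have h4t : 0 < 4 * t := by positivity
  have hKc := hk.kern.pK.continuous
  have i1 : Integrable (fun Y => K (aX T w z' Y / t ^ 2) * eP T w P Y) ν :=
    hC.intg H (hC.gd_eP H ht.le hG') hKc hk.kern.pK.zero ht le_rfl
  have i2 : Integrable (fun Y => K (aX T w z Y / (4 * t) ^ 2) * eP T w P Y) ν :=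
    hC.intg H (hC.gd_eP H h4t.le hG) hKc hk.kern.pK.zero h4t le_rfl
  have key : ∀ᵐ Y ∂ν, K (aX T w z' Y / t ^ 2) * eP T w P Y ≤
      B ^ 2 * (K (aX T w z Y / (4 * t) ^ 2) * eP T w P Y) := by
    filter_upwards [hC.eP_nonneg] with Y hY
    rw [← mul_assoc]
    refine mul_le_mul_of_nonneg_right ?_ hY
    by_cases hlt : aX T w z' Y < t ^ 2
    · have h3 := aX_div_lt ht hzz hlt
      have h4 := hk.Klow _ (div_nonneg (aX_nonneg Y) (by positivity)) h3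
      have h5 := hk.KB (aX T w z' Y / t ^ 2) (div_nonneg (aX_nonneg Y) (by positivity))
      calc K (aX T w z' Y / t ^ 2) ≤ B * 1 := by rw [mul_one]; exact h5
        _ ≤ B * (B * K (aX T w z Y / (4 * t) ^ 2)) := by gcongr
        _ = _ := by ring
    · have h1 : K (aX T w z' Y / t ^ 2) = 0 := hk.kern.pK.zero _ (by
        rw [le_div_iff₀ (by positivity), one_mul]; exact not_lt.1 hlt)
      rw [h1]
      have := hk.kern.K_nonneg (aX T w z Y / (4 * t) ^ 2)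
      positivity
  have h1 := integral_mono_ae i1 (i2.const_mul (B ^ 2)) key
  rw [integral_const_mul] at h1
  unfold gF kI
  have z2 : t ^ (2 - (m : ℤ)) ≤ 4 ^ m * (4 * t) ^ (2 - (m : ℤ)) := by
    rw [mul_zpow, ← mul_assoc]
    have e1 : (4 : ℝ) ^ m * 4 ^ (2 - (m : ℤ)) = 16 := by
      rw [← zpow_natCast, ← zpow_add₀ (by norm_num : (4:ℝ) ≠ 0)]
      rw [show (m : ℤ) + (2 - m) = 2 by ring]
      norm_num
    rw [e1]
    have : 0 ≤ t ^ (2 - (m : ℤ)) := by positivity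
    linarith
  have h0 : 0 ≤ ∫ Y, K (aX T w z Y / (4 * t) ^ 2) * eP T w P Y ∂ν := by
    refine integral_nonneg_of_ae ?_
    filter_upwards [hC.eP_nonneg] with Y hY
    exact mul_nonneg (hk.kern.K_nonneg _) hY
  have ht0 : 0 ≤ t ^ (2 - (m : ℤ)) := by positivity
  calc _ ≤ t ^ (2 - (m : ℤ)) * (B ^ 2 * ∫ Y, K (aX T w z Y / (4 * t) ^ 2) * eP T w P Y ∂ν) := by
        gcongr
    _ ≤ (4 ^ m * (4 * t) ^ (2 - (m : ℤ))) *
        (B ^ 2 * ∫ Y, K (aX T w z Y / (4 * t) ^ 2) * eP T w P Y ∂ν) := by gcongr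
    _ = _ := by ring

end compare

/-- the constant of `pin_two` -/
noncomputable def cA (m : ℕ) (B : ℝ) : ℝ :=
  2 ^ m * B ^ 2 * (9 + cP m * (4 * 4 ^ m * B ^ 3 + 2 * 16 ^ m))

lemma cA_ge (m : ℕ) {B : ℝ} (hB : 1 ≤ B) : 1 ≤ cA m B := by
  unfold cA
  have h1 : (1:ℝ) ≤ 2 ^ m := one_le_pow₀ (by norm_num)
  have h2 : (1:ℝ) ≤ B ^ 2 := one_le_pow₀ hB
  have h3 := cP_ge m
  have h4 : 0 ≤ cP m * (4 * 4 ^ m * B ^ 3 + 2 * 16 ^ m) := by positivity
  have h5 : (1:ℝ) ≤ 2 ^ m * B ^ 2 := by nlinarith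
  nlinarith

lemma pin2_a {κ κ' s η N σ : ℝ} (hs : 0 < s) (hκ0 : 0 ≤ κ) (hκ0' : 0 ≤ κ') (hκ : κ * s ≤ η)
    (hκ' : κ' * s ≤ η) :
    N ^ 2 * σ ^ 2 + (κ * (s / 16)) ^ 2 + (κ' * (s / 16)) ^ 2 ≤ (1 + N ^ 2) * (σ ^ 2 + η ^ 2) := by
  have hη : 0 ≤ η := (mul_nonneg hκ0 hs.le).trans hκ
  have e1 : (κ * (s / 16)) ^ 2 ≤ (η / 16) ^ 2 := by
    have : κ * (s / 16) = κ * s / 16 := by ring
    rw [this]
    exact pow_le_pow_left₀ (by positivity) (by linarith) 2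
  have e2 : (κ' * (s / 16)) ^ 2 ≤ (η / 16) ^ 2 := by
    have : κ' * (s / 16) = κ' * s / 16 := by ring
    rw [this]
    exact pow_le_pow_left₀ (by positivity) (by linarith) 2
  have e3 : (η / 16) ^ 2 = η ^ 2 / 256 := by ring
  rw [e3] at e1 e2
  have h1 := sq_nonneg η
  have h2 : 0 ≤ N ^ 2 * η ^ 2 := by positivity
  have h3 := sq_nonneg σ
  have e4 : (1 + N ^ 2) * (σ ^ 2 + η ^ 2) = σ ^ 2 + η ^ 2 + N ^ 2 * σ ^ 2 + N ^ 2 * η ^ 2 := by ring
  rw [e4]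
  linarith

lemma pin2_b {m : ℕ} {s d N M Cm : ℝ} (hs : 0 < s) (hCm : 0 ≤ Cm) (hM : M ≤ Cm * s ^ m) :
    (1 + N ^ 2) * (s * d + s / 16 * (2 * d)) ^ 2 * ((s / 16) ^ (-(m : ℤ)) * M) ≤
      (2 * 16 ^ m) * ((1 + N ^ 2) * (Cm * s ^ 2 * d ^ 2)) := by
  have hsm : 0 < s ^ m := by positivity
  have z1 : (s / 16) ^ (-(m : ℤ)) = 16 ^ m * (s ^ m)⁻¹ := by
    rw [zpow_neg, zpow_natCast, div_pow, inv_div, div_eq_mul_inv]
  have e1 : (s / 16) ^ (-(m : ℤ)) * M ≤ 16 ^ m * Cm := by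
    calc (s / 16) ^ (-(m : ℤ)) * M ≤ (s / 16) ^ (-(m : ℤ)) * (Cm * s ^ m) := by gcongr
      _ = _ := by rw [z1]; field_simp
  have e2 : (s * d + s / 16 * (2 * d)) ^ 2 ≤ 2 * (s ^ 2 * d ^ 2) := by
    have : (s * d + s / 16 * (2 * d)) ^ 2 = 81 / 64 * (s ^ 2 * d ^ 2) := by ring
    rw [this]
    have : 0 ≤ s ^ 2 * d ^ 2 := by positivity
    linarith
  calc (1 + N ^ 2) * (s * d + s / 16 * (2 * d)) ^ 2 * ((s / 16) ^ (-(m : ℤ)) * M)
      ≤ (1 + N ^ 2) * (s * d + s / 16 * (2 * d)) ^ 2 * (16 ^ m * Cm) := by gcongr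
    _ ≤ (1 + N ^ 2) * (2 * (s ^ 2 * d ^ 2)) * (16 ^ m * Cm) := by gcongr
    _ = _ := by ring

lemma pin2_c {F c a b p p' X Y Z : ℝ} (hF : 0 ≤ F) (hc : 0 ≤ c) (ha : 0 ≤ a) (hb : 0 ≤ b)
    (hX : 0 ≤ X) (hY : 0 ≤ Y) (hZ : 0 ≤ Z) (hp' : 0 ≤ p')
    (h : p ≤ F * (9 * p' + c * (a * X + a * Y + b * Z))) :
    p ≤ F * (9 + c * (a + b)) * p' + F * (9 + c * (a + b)) * (X + Y + Z) := by
  have e1 : a * X + a * Y + b * Z ≤ (a + b) * (X + Y + Z) := by
    have e2 : (a + b) * (X + Y + Z) = a * X + a * Y + b * Z + (a * Z + b * X + b * Y) := by ring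
    rw [e2]
    have : 0 ≤ a * Z + b * X + b * Y := by positivity
    linarith
  have e3 : F * (9 * p' + c * (a * X + a * Y + b * Z)) ≤
      F * (9 * p' + c * ((a + b) * (X + Y + Z))) := by gcongr
  have e4 : F * (9 + c * (a + b)) * p' + F * (9 + c * (a + b)) * (X + Y + Z) =
      F * (9 * p' + c * ((a + b) * (X + Y + Z))) + (F * (c * (a + b)) * p' +
        F * 9 * (X + Y + Z)) := by ring
  have e5 : 0 ≤ F * (c * (a + b)) * p' + F * 9 * (X + Y + Z) := by positivity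
  linarith

/-- the real arithmetic of `pin_two` -/
lemma pin2_real {m : ℕ} {B p p' N σ κ κ' s d τ η Hc gc H0 g0 M Cm : ℝ} (hB : 1 ≤ B)
    (hs : 0 < s) (hp' : 0 ≤ p') (hH0 : 0 ≤ H0) (hg0 : 0 ≤ g0) (hHc : 0 ≤ Hc)
    (hκ0 : 0 ≤ κ) (hκ0' : 0 ≤ κ') (hκ : κ * s ≤ η) (hκ' : κ' * s ≤ η) (hCm : 0 ≤ Cm)
    (hH : Hc ≤ 2 * 4 ^ m * B ^ 3 * H0) (hg : gc ≤ 4 ^ m * B ^ 2 * g0)
    (hM : M ≤ Cm * s ^ m)
    (h : p ≤ 2 ^ m * B ^ 2 * (9 * p' + cP m * (2 * (N ^ 2 * σ ^ 2 + (κ * (s / 16)) ^ 2 +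
        (κ' * (s / 16)) ^ 2) * Hc + τ ^ 2 * gc +
        (1 + N ^ 2) * (s * d + s / 16 * (2 * d)) ^ 2 * ((s / 16) ^ (-(m : ℤ)) * M)))) :
    p ≤ cA m B * p' + cA m B * (1 + N ^ 2) * ((σ ^ 2 + η ^ 2) * H0 + τ ^ 2 * g0 +
      Cm * s ^ 2 * d ^ 2) := by
  have hcP : 0 ≤ cP m := by have := cP_ge m; linarith
  have hB0 : 0 < B := by linarith
  have c2 : 2 * (N ^ 2 * σ ^ 2 + (κ * (s / 16)) ^ 2 + (κ' * (s / 16)) ^ 2) * Hc ≤
      (4 * 4 ^ m * B ^ 3) * ((1 + N ^ 2) * ((σ ^ 2 + η ^ 2) * H0)) := by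
    have e1 := pin2_a (N := N) (σ := σ) hs hκ0 hκ0' hκ hκ'
    calc 2 * (N ^ 2 * σ ^ 2 + (κ * (s / 16)) ^ 2 + (κ' * (s / 16)) ^ 2) * Hc
        ≤ 2 * ((1 + N ^ 2) * (σ ^ 2 + η ^ 2)) * Hc := by gcongr
      _ ≤ 2 * ((1 + N ^ 2) * (σ ^ 2 + η ^ 2)) * (2 * 4 ^ m * B ^ 3 * H0) := by gcongr
      _ = _ := by ring
  have c3 : τ ^ 2 * gc ≤ (4 * 4 ^ m * B ^ 3) * ((1 + N ^ 2) * (τ ^ 2 * g0)) := by
    have e2 : (4:ℝ) ^ m * B ^ 2 ≤ 4 * 4 ^ m * B ^ 3 := by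
      have h4 : B ^ 2 ≤ 4 * B ^ 3 := by
        have e3 : 4 * B ^ 3 = B ^ 2 * (4 * B) := by ring
        rw [e3]
        have : 0 ≤ B ^ 2 := by positivity
        exact le_mul_of_one_le_right this (by linarith)
      calc (4:ℝ) ^ m * B ^ 2 ≤ 4 ^ m * (4 * B ^ 3) := by gcongr
        _ = _ := by ring
    have e3 : 0 ≤ τ ^ 2 * g0 := by positivity
    have e4 : τ ^ 2 * g0 ≤ (1 + N ^ 2) * (τ ^ 2 * g0) := by
      have h5 : (1:ℝ) ≤ 1 + N ^ 2 := by have := sq_nonneg N; linarith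
      exact le_mul_of_one_le_left e3 h5
    calc τ ^ 2 * gc ≤ τ ^ 2 * (4 ^ m * B ^ 2 * g0) := by gcongr
      _ = (4 ^ m * B ^ 2) * (τ ^ 2 * g0) := by ring
      _ ≤ (4 * 4 ^ m * B ^ 3) * ((1 + N ^ 2) * (τ ^ 2 * g0)) := by gcongr
  have c4 := pin2_b (N := N) (d := d) hs hCm hM
  have c5 : 0 ≤ (1 + N ^ 2) * ((σ ^ 2 + η ^ 2) * H0) := by positivity
  have c6 : 0 ≤ (1 + N ^ 2) * (τ ^ 2 * g0) := by positivity
  have c7 : 0 ≤ (1 + N ^ 2) * (Cm * s ^ 2 * d ^ 2) := by positivity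
  have c9 : p ≤ 2 ^ m * B ^ 2 * (9 * p' + cP m * ((4 * 4 ^ m * B ^ 3) *
      ((1 + N ^ 2) * ((σ ^ 2 + η ^ 2) * H0)) + (4 * 4 ^ m * B ^ 3) *
      ((1 + N ^ 2) * (τ ^ 2 * g0)) + (2 * 16 ^ m) * ((1 + N ^ 2) * (Cm * s ^ 2 * d ^ 2)))) := by
    refine h.trans ?_
    gcongr
  have c10 := pin2_c (F := 2 ^ m * B ^ 2) (by positivity) hcP (by positivity) (by positivity)
    c5 c6 c7 hp' c9
  refine c10.trans (le_of_eq ?_)
  unfold cA
  ring

/-- **the transfer of the pinching, final form** -/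
theorem pin_two {m : ℕ} {k k' K : ℝ → ℝ} {B : ℝ} (hk : ODEW.KB k k' K B)
    (hkl : ∀ s, 0 ≤ s → s ≤ 9 / 16 → 1 ≤ B * k s) {T T' : Submodule ℝ E} {w w' wt : E → E}
    {ε κ h₁ ε' κ' h₁' h h' s d μ Cm η σ τ : ℝ} {c : E} {ν : Measure E} {P : E → E →L[ℝ] E}
    (H : Adm T w ε κ h₁) (H' : Adm T' w' ε' κ' h₁')
    (hC : CylF m T w h₁ (ball 0 (2 * s)) h (fmeas T w h₁ ν) (fP T w h₁ P))
    (hC' : CylF m T' w' h₁' (ball (T'.starProjection c) s) h' (fmeas T' w' h₁' ν)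
      (fP T' w' h₁' P))
    (hS : RG.Same T wt T' w') (hs : 0 < s)
    (h0 : ∀ y, ‖T.starProjection y‖ ≤ s / 4 → ‖w y - wt y‖ ≤ s * d)
    (h1 : ∀ y, ‖T.starProjection y‖ ≤ s / 4 → ‖fderiv ℝ w y - fderiv ℝ wt y‖ ≤ d)
    (hd1 : d ≤ 1 / 640) (hc : ‖c‖ ≤ s / 64)
    (hτ0 : 0 ≤ τ) (hτ : ‖T.starProjection - T'.starProjection‖ ≤ τ) (hτ1 : τ ≤ 1 / 32)
    (hz : ‖w c - co T c‖ ≤ s / 512) (hz' : ‖w' c - co T' c‖ ≤ s / 512)
    (hκ : κ * s ≤ η) (hκ' : κ' * s ≤ η) (hη : η ≤ 1) (hσ1 : σ ≤ 1)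
    (hσ : ∀ y, ‖T.starProjection y‖ ≤ s / 4 → ‖fderiv ℝ w y‖ ^ 2 ≤ σ)
    (hσ' : ∀ y, ‖T'.starProjection (y - c)‖ ≤ s / 4 → ‖fderiv ℝ w' y‖ ^ 2 ≤ σ)
    (hu : ∀ᵐ Y ∂(fmeas T w h₁ ν), ‖T.starProjection Y‖ < s / 2 → ‖co T Y‖ ≤ s / 512)
    (hu' : ∀ᵐ Y ∂(fmeas T' w' h₁' ν), ‖T'.starProjection (Y - c)‖ < s / 2 → ‖co T' Y‖ ≤ μ)
    (hμs : μ ≤ s / 16) (hμ : 2 * μ + s * d ≤ h₁) (hCm : 0 ≤ Cm)
    (hm : (fmeas T w h₁ ν).real {Y | ‖T.starProjection Y‖ < s / 2} ≤ Cm * s ^ m) (N : ℝ) :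
    pinF m T w h₁ c k K (fP T w h₁ P) (fmeas T w h₁ ν) N (s / 32) ≤
      cA m B * pinF m T' w' h₁' c k K (fP T' w' h₁' P) (fmeas T' w' h₁' ν) N (s / 16) +
      cA m B * (1 + N ^ 2) * ((σ ^ 2 + η ^ 2) * HF m T w 0 k (fmeas T w h₁ ν) (s / 4) +
        τ ^ 2 * gF m T w 0 K (fP T w h₁ P) (fmeas T w h₁ ν) (s / 4) + Cm * s ^ 2 * d ^ 2) := by
  haveI := hC.fin
  haveI := hC'.fin
  have hB1 := hk.one
  have ht : 0 < s / 16 := by positivity
  have hd0 : 0 ≤ d := (norm_nonneg _).trans (h1 0 (by rw [map_zero, norm_zero]; positivity))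
  have hTc : ‖T.starProjection c‖ ≤ s / 64 := (norm_star_le T _).trans hc
  have key : ∀ y, ‖bx T c y‖ ≤ 2 * (s / 16) → ‖T.starProjection y‖ ≤ s / 4 := by
    intro y hy
    have e1 : T.starProjection y = bx T c y + T.starProjection c := by rw [bx_eq]; abel
    rw [e1]
    exact (norm_add_le _ _).trans (by linarith)
  have key' : ∀ y, ‖bx T' c y‖ ≤ s / 16 → ‖T'.starProjection (y - c)‖ ≤ s / 4 := by
    intro y hy
    have e1 : T'.starProjection (y - c) = bx T' c y := by rw [bx_eq, map_sub]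
    rw [e1]
    linarith
  have haX : ∀ Y, aX T w c Y < (s / 16) ^ 2 → ‖T.starProjection Y‖ < s / 2 := by
    intro Y hY
    have e1 : ‖bx T c Y‖ < s / 16 := by
      unfold aX XX at hY
      exact lt_of_pow_lt_pow_left₀ 2 ht.le hY
    have := key Y (by linarith)
    linarith
  have hG : BallIn T (ball 0 (2 * s)) c (s / 16) := by
    intro x hx hx2
    rw [mem_ball_zero_iff]
    have e1 : x = (x - T.starProjection c) + T.starProjection c := by abel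
    rw [e1]
    exact (norm_add_le _ _).trans_lt (by linarith)
  have hG0 : BallIn T (ball 0 (2 * s)) 0 (4 * (s / 16)) := by
    intro x hx hx2
    rw [mem_ball_zero_iff]
    rw [map_zero, sub_zero] at hx2
    linarith
  have hG' : BallIn T' (ball (T'.starProjection c) s) c (s / 16) := by
    intro x hx hx2
    rw [mem_ball, dist_eq_norm]
    linarith
  have hε' : ε' ≤ 1 / 16 := H'.eps_le
  have hTwo : Two T T' w w' κ h₁ κ' c (s / 16) (s * d) (2 * d) τ σ :=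
    Two.of_same H.ref H'.ref hε' hS ht (fun y hy => h0 y (key y hy)) (fun y hy => h1 y (key y hy))
      hτ0 hτ (by nlinarith) (by linarith) (by linarith) (by linarith) (by linarith) hσ1
      (fun y hy => hσ y (key y (by linarith))) (fun y hy => hσ' y (key' y hy))
  have hmain := pin_transfer H H' hC hC' hk hkl hG hG' hTwo
    (by filter_upwards [hu] with Y hY hlt; have := hY (haX Y hlt); linarith)
    (by
      filter_upwards [hu'] with Y hY hlt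
      refine hY ?_
      have e1 : ‖bx T' c Y‖ < s / 16 := by
        unfold aX XX at hlt
        exact lt_of_pow_lt_pow_left₀ 2 ht.le hlt
      have e2 : T'.starProjection (Y - c) = bx T' c Y := by rw [bx_eq, map_sub]
      rw [e2]; linarith) hμs hμ N
  have hzz : ‖T.starProjection c - T.starProjection 0‖ ≤ s / 16 / 4 := by
    rw [map_zero, sub_zero]; linarith
  have hHF := HF_le4 (z' := c) H hC hk ht hG0 hzz
  have hgF := gF_le4 (z' := c) H hC hk ht hG0 hG hzz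
  have e4 : 4 * (s / 16) = s / 4 := by ring
  rw [e4] at hHF hgF
  have hM : (fmeas T w h₁ ν).real {Y | aX T w c Y < (s / 16 / 2) ^ 2} ≤ Cm * s ^ m := by
    refine (measureReal_mono (fun Y hY => ?_)).trans hm
    refine haX Y (lt_of_lt_of_le hY ?_)
    exact pow_le_pow_left₀ (by positivity) (by linarith) 2
  have e5 : s / 16 / 2 = s / 32 := by ring
  rw [e5] at hmain hM
  exact pin2_real hB1 hs (pinF_nonneg H' hC' hk.kern ht hG' N)
    (hC.HF_nonneg (z := 0) H hk.kern (by positivity))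
    (hC.gF_nonneg (z := 0) H hk.kern (by positivity))
    (hC.HF_nonneg (z := c) H hk.kern ht) H.ref.knn H'.ref.knn hκ hκ' hCm hHF hgF hM hmain

end Vale.Agent.P214.BPIN
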