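import Vale.Agent.P214.BPIN.Pt
import Vale.Agent.P214.ODEW.Kern

/-!
# P214, Target B, block B4-PIN: transfer of the pinching between two Fermi charts

`pin_transfer`: for two references `(T, w)`, `(T', w')` whose graphs are `C¹`-close near the ball of
radius `t` around `z`, the pinching at `z` at scale `t/2` in the first chart is bounded by the
pinching at `z` at scale `t` in the second chart, up to small multiples of `HF`, `gF` and the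
closeness.
-/

open Set Filter Topology MeasureTheory Metric
open scoped RealInnerProductSpace ContDiff

set_option linter.all false

namespace Vale.Agent.P214.BPIN

open FV ODE FM BCS

variable {E : Type*} [NormedAddCommGroup E] [InnerProductSpace ℝ E] [FiniteDimensional ℝ E]
  [MeasurableSpace E] [BorelSpace E]

section transport

variable {T : Submodule ℝ E} {w : E → E} {ε κ h₁ : ℝ} {ν : Measure E}

lemma ae_pull (H : Adm T w ε κ h₁) {p : E → Prop} (hp : ∀ᵐ Y ∂(fmeas T w h₁ ν), p Y) :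
    ∀ᵐ y ∂ν, p (PsiInv T w h₁ y) :=
  ae_of_ae_map H.aem.aemeasurable hp

lemma emb_PsiInv (H : Adm T w ε κ h₁) : MeasurableEmbedding (PsiInv T w h₁) := by
  have h0 : PsiInv T w h₁ = H.hom.symm := funext H.PsiInv_eq
  rw [h0]
  exact H.hom.symm.measurableEmbedding

lemma integral_pull (H : Adm T w ε κ h₁) (f : E → ℝ) :
    ∫ Y, f Y ∂(fmeas T w h₁ ν) = ∫ y, f (PsiInv T w h₁ y) ∂ν := by
  unfold fmeas
  rw [(emb_PsiInv H).integral_map]

lemma integrable_pull (H : Adm T w ε κ h₁) {f : E → ℝ} (hf : Integrable f (fmeas T w h₁ ν)) :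
    Integrable (fun y => f (PsiInv T w h₁ y)) ν := by
  unfold fmeas at hf
  exact ((emb_PsiInv H).integrable_map_iff).1 hf

/-- a point in the tube over the small ball is close to the centre -/
lemma norm_Psi_sub_le (H : Adm T w ε κ h₁) {z Y : E} {t a : ℝ} (ht : 0 ≤ t)
    (hb : ‖bx T z Y‖ ≤ a) (hu : ‖co T Y‖ ≤ t / 32) (hh : ‖co T Y‖ ≤ h₁)
    (hz : ‖w z - co T z‖ ≤ t / 32) :
    ‖Psi T w h₁ Y - z‖ ≤ 17 / 16 * a + t / 32 + 17 / 16 * (t / 32) := by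
  have hw := H.ref
  have he := H.eps_le
  have he0 := hw.eps_nonneg
  rw [Psi_eq_ftp hw H.hpos hh]
  have e1 : ftp T w Y + om T w Y - z = bx T z Y + (w Y - w z) + (w z - co T z) + om T w Y := by
    rw [bx_eq, co_apply]
    unfold ftp
    abel
  have h2 := norm_star_sub_le hw Y z
  rw [← bx_eq] at h2
  have h3 : ‖om T w Y‖ ≤ 17 / 16 * ‖co T Y‖ := ODEF.norm_omF_le H Y
  rw [e1]
  calc _ ≤ ‖bx T z Y‖ + ‖w Y - w z‖ + ‖w z - co T z‖ + ‖om T w Y‖ :=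
        (norm_add_le _ _).trans (by
          gcongr
          exact (norm_add_le _ _).trans (by gcongr; exact norm_add_le _ _))
    _ ≤ a + 1 / 16 * a + t / 32 + 17 / 16 * (t / 32) := by
        have ha : 0 ≤ a := (norm_nonneg _).trans hb
        gcongr
        · exact h2.trans (by gcongr)
        · exact h3.trans (by gcongr)
    _ = _ := by ring

/-- the base position is controlled by the distance to the centre -/
lemma norm_bx_le_Psi (H : Adm T w ε κ h₁) {z Y : E} {t : ℝ} (ht : 0 ≤ t)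
    (hz : ‖w z - co T z‖ ≤ t / 32) :
    ‖bx T z Y‖ ≤ 4 / 3 * (‖Psi T w h₁ Y - z‖ + t / 32) := by
  have hw := H.ref
  have h1 := norm_sub_le_Psi H Y (T.starProjection z)
  have h2 : Psi T w h₁ (T.starProjection z) = T.starProjection z + w z := by
    rw [Psi_eq_ftp hw H.hpos (by rw [co_star, norm_zero]; exact H.hpos.le)]
    unfold ftp om
    rw [co_star, map_zero, star_self, hw.base, sub_zero, add_zero]
  have h3 : bx T z Y = T.starProjection (Y - T.starProjection z) := by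
    rw [bx_eq, map_sub, star_self]
  rw [h2] at h1
  rw [h3]
  refine (norm_star_le T _).trans (h1.trans ?_)
  gcongr
  have e1 : Psi T w h₁ Y - (T.starProjection z + w z) = (Psi T w h₁ Y - z) - (w z - co T z) := by
    rw [co_apply]; abel
  rw [e1]
  exact (norm_sub_le _ _).trans (by gcongr)

end transport

lemma integrate_bound {ν : Measure E} {g0 g1 g2 g3 g4 : E → ℝ} {a b c2 c3 c4 : ℝ}
    (j0 : Integrable g0 ν) (j1 : Integrable g1 ν) (j2 : Integrable g2 ν) (j3 : Integrable g3 ν)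
    (j4 : Integrable g4 ν)
    (key : ∀ᵐ y ∂ν, g0 y ≤ a * g1 y + b * (c3 * g3 y + c2 * g2 y + c4 * g4 y)) :
    ∫ y, g0 y ∂ν ≤ a * ∫ y, g1 y ∂ν +
      b * (c3 * ∫ y, g3 y ∂ν + c2 * ∫ y, g2 y ∂ν + c4 * ∫ y, g4 y ∂ν) := by
  have l1 : Integrable (fun y => a * g1 y) ν := j1.const_mul _
  have l2 : Integrable (fun y => c3 * g3 y + c2 * g2 y) ν := (j3.const_mul _).add (j2.const_mul _)
  have l3 : Integrable (fun y => c3 * g3 y + c2 * g2 y + c4 * g4 y) ν := l2.add (j4.const_mul _)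
  have l4 : Integrable (fun y => b * (c3 * g3 y + c2 * g2 y + c4 * g4 y)) ν := l3.const_mul _
  refine (integral_mono_ae j0 (l1.add l4) key).trans (le_of_eq ?_)
  have m1 : ∫ y, (a * g1 y + b * (c3 * g3 y + c2 * g2 y + c4 * g4 y)) ∂ν = a * ∫ y, g1 y ∂ν +
      b * (c3 * ∫ y, g3 y ∂ν + c2 * ∫ y, g2 y ∂ν + c4 * ∫ y, g4 y ∂ν) := by
    rw [integral_add l1 l4, integral_const_mul, integral_const_mul,
      integral_add l2 (j4.const_mul _), integral_add (j3.const_mul _) (j2.const_mul _),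
      integral_const_mul, integral_const_mul, integral_const_mul]
  exact m1

/-- the data of two charts which are close near the ball of radius `t` around `z` -/
structure Two (T T' : Submodule ℝ E) (w w' : E → E) (κ h₁ κ' : ℝ) (z : E) (t d₀ d₁ τ s : ℝ) :
    Prop where
  t0 : 0 < t
  hd₀ : ∀ Y, ‖bx T' z Y‖ ≤ t → ‖co T (ftp T' w' Y) - w (ftp T' w' Y)‖ ≤ d₀
  hd₁ : ∀ Y, ‖bx T' z Y‖ ≤ t → ‖PS T w (ftp T' w' Y) - PS T' w' Y‖ ≤ d₁
  hτ0 : 0 ≤ τ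
  hτ : ∀ v, ‖T.starProjection v - T'.starProjection v‖ ≤ τ * ‖v‖
  sm : d₀ + 2 * t * d₁ + τ * t ≤ t / 16
  hz : ‖w z - co T z‖ ≤ t / 32
  hz' : ‖w' z - co T' z‖ ≤ t / 32
  hκ : κ * t ≤ 1
  hκ' : κ' * t ≤ 1
  hs1 : s ≤ 1
  hs : ∀ Y, ‖bx T z Y‖ ≤ t → ‖fderiv ℝ w Y‖ ^ 2 ≤ s
  hs' : ∀ Y, ‖bx T' z Y‖ ≤ t → ‖fderiv ℝ w' Y‖ ^ 2 ≤ s

variable {m : ℕ} {T T' S : Submodule ℝ E} {w w' : E → E} {ε κ h₁ ε' κ' h₁' : ℝ} {G G' : Set E}
  {h h' : ℝ} {ν : Measure E} {P : E → E →L[ℝ] E} {z : E} {k k' K : ℝ → ℝ}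
  {B t d₀ d₁ τ s μ : ℝ}

/-- geometry at one point: the base position in the second chart -/
lemma two_geom (H : Adm T w ε κ h₁) (H' : Adm T' w' ε' κ' h₁')
    (h2 : Two T T' w w' κ h₁ κ' z t d₀ d₁ τ s) {y : E}
    (hlt : aX T w z (PsiInv T w h₁ y) < (t / 2) ^ 2)
    (hu : ‖co T (PsiInv T w h₁ y)‖ ≤ t / 32) (hh : ‖co T (PsiInv T w h₁ y)‖ < h₁) :
    aX T' w' z (PsiInv T' w' h₁' y) < t ^ 2 := by
  have ht := h2.t0
  have hbx : ‖bx T z (PsiInv T w h₁ y)‖ ≤ t / 2 := by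
    unfold aX XX at hlt
    exact (lt_of_pow_lt_pow_left₀ 2 (by positivity) hlt).le
  have c4 := norm_Psi_sub_le H ht.le hbx hu hh.le h2.hz
  rw [H.Psi_PsiInv y] at c4
  have c5 := norm_bx_le_Psi H' (Y := PsiInv T' w' h₁' y) ht.le h2.hz'
  rw [H'.Psi_PsiInv y] at c5
  have c6 : ‖bx T' z (PsiInv T' w' h₁' y)‖ < t := by linarith
  unfold aX XX
  gcongr

/-- the pointwise bound of the pinching fields, and of the base position -/
lemma two_pt (H : Adm T w ε κ h₁) (H' : Adm T' w' ε' κ' h₁')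
    (h2 : Two T T' w w' κ h₁ κ' z t d₀ d₁ τ s) (hm : Module.finrank ℝ T = m) {y : E}
    (hlt : aX T w z (PsiInv T w h₁ y) < (t / 2) ^ 2)
    (hh : ‖co T (PsiInv T w h₁ y)‖ < h₁)
    (hlt' : aX T' w' z (PsiInv T' w' h₁' y) < t ^ 2)
    (hu' : ‖co T' (PsiInv T' w' h₁' y)‖ ≤ μ) (hh' : ‖co T' (PsiInv T' w' h₁' y)‖ < h₁')
    (hμt : μ ≤ t) (hμ : 2 * μ + d₀ ≤ h₁) (hS : Module.finrank ℝ S = m)
    (hPS : P y = S.starProjection) (N : ℝ) :
    ‖ff T w h₁ z (fP T w h₁ P) N (PsiInv T w h₁ y)‖ ^ 2 ≤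
      9 * ‖ff T' w' h₁' z (fP T' w' h₁' P) N (PsiInv T' w' h₁' y)‖ ^ 2 +
      cP m * ((τ * t) ^ 2 * eP T w (fP T w h₁ P) (PsiInv T w h₁ y) +
        (N ^ 2 * s ^ 2 + (κ * t) ^ 2 + (κ' * t) ^ 2) * ‖om T w (PsiInv T w h₁ y)‖ ^ 2 +
        (1 + N ^ 2) * (d₀ + t * d₁) ^ 2) ∧
    ‖bx T' z (PsiInv T' w' h₁' y)‖ ≤ 3 / 4 * t := by
  have ht := h2.t0
  have hτ0 := h2.hτ0
  have e1 := H.Psi_PsiInv y
  have e1' := H'.Psi_PsiInv y
  have hbx : ‖bx T z (PsiInv T w h₁ y)‖ ≤ t / 2 := by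
    unfold aX XX at hlt
    exact (lt_of_pow_lt_pow_left₀ 2 (by positivity) hlt).le
  have c6 : ‖bx T' z (PsiInv T' w' h₁' y)‖ ≤ t := by
    unfold aX XX at hlt'
    exact (lt_of_pow_lt_pow_left₀ 2 (by positivity) hlt').le
  have c11 : ‖om T' w' (PsiInv T' w' h₁' y)‖ ≤ 2 * μ := by
    have h1 : ‖om T' w' (PsiInv T' w' h₁' y)‖ ≤ 17 / 16 * ‖co T' (PsiInv T' w' h₁' y)‖ :=
      ODEF.norm_omF_le H' _
    have := norm_nonneg (co T' (PsiInv T' w' h₁' y))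
    linarith
  have hPS1 : fP T w h₁ P (PsiInv T w h₁ y) = S.starProjection := by
    unfold fP; rw [e1, hPS]
  have hPS1' : fP T' w' h₁' P (PsiInv T' w' h₁' y) = S.starProjection := by
    unfold fP; rw [e1', hPS]
  have hd0' := h2.hd₀ _ c6
  have hd1' := h2.hd₁ _ c6
  have hd1 : 0 ≤ d₁ := (norm_nonneg _).trans hd1'
  have hsm : ‖om T' w' (PsiInv T' w' h₁' y)‖ + d₀ ≤ h₁ := by linarith
  have hz2 : ‖w' z - co T' z‖ ≤ t / 2 := h2.hz'.trans (by linarith)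
  constructor
  · have q1 := norm_ff_le (S := S) (z := z) (P := fP T w h₁ P) (P' := fP T' w' h₁' P) H H' hh hh'
      (e1.trans e1'.symm) hd0' hd1' hsm ht (hbx.trans (by linarith)) c6 (by linarith) hτ0 h2.hτ
      hz2 h2.hκ h2.hκ' (hS.trans hm.symm) h2.hs1 (h2.hs _ (hbx.trans (by linarith)))
      (h2.hs' _ c6) hPS1 hPS1' N
    rw [hm] at q1
    have h1 : eP T w (fP T w h₁ P) (PsiInv T w h₁ y) =
        FM.eS T w (PsiInv T w h₁ y) S.starProjection := by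
      unfold eP; rw [hPS1]
    rw [h1]
    exact q1
  · have q2 := norm_bx_sub_le (z := z) H H' hh hh' (e1.trans e1'.symm) hd0' hd1' hsm ht c6 hτ0
      h2.hτ hz2
    have h1 : ‖bx T' z (PsiInv T' w' h₁' y)‖ ≤ ‖bx T z (PsiInv T w h₁ y)‖ +
        ‖bx T z (PsiInv T w h₁ y) - bx T' z (PsiInv T' w' h₁' y)‖ := by
      calc _ = ‖bx T z (PsiInv T w h₁ y) -
            (bx T z (PsiInv T w h₁ y) - bx T' z (PsiInv T' w' h₁' y))‖ := by congr 1; abel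
        _ ≤ _ := norm_sub_le _ _
    have h3 : d₁ * ‖om T' w' (PsiInv T' w' h₁' y)‖ ≤ d₁ * (2 * t) := by gcongr; linarith
    have h4 : 0 ≤ τ * t := by positivity
    have h5 := h2.sm
    linarith

/-- real part of the pointwise bound -/
lemma key_real {B cp f0 f1 f2 f3 f4 FF FF' e o2 X a d : ℝ} (hB : 1 ≤ B) (hcp : 0 ≤ cp)
    (hX : 0 ≤ X) (ha : 0 ≤ a) (hd : 0 ≤ d) (q : FF ≤ 9 * FF' + cp * (a * e + X * o2 + d))
    (r0 : f0 ≤ B * FF) (r1 : FF' ≤ B * f1) (r2 : e ≤ B * f2) (r3 : o2 ≤ 2 * B * f3)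
    (r4 : f4 = 1) :
    f0 ≤ 9 * B ^ 2 * f1 + B ^ 2 * cp * (2 * X * f3 + a * f2 + d * f4) := by
  have hB0 : 0 ≤ B := by linarith
  calc f0 ≤ B * FF := r0
    _ ≤ B * (9 * FF' + cp * (a * e + X * o2 + d)) := mul_le_mul_of_nonneg_left q hB0
    _ ≤ B * (9 * (B * f1) + cp * (a * (B * f2) + X * (2 * B * f3) + d * B)) := by
        have h1 : 9 * FF' ≤ 9 * (B * f1) := by linarith
        have h2 : a * e ≤ a * (B * f2) := mul_le_mul_of_nonneg_left r2 ha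
        have h3 : X * o2 ≤ X * (2 * B * f3) := mul_le_mul_of_nonneg_left r3 hX
        have h4 : d ≤ d * B := le_mul_of_one_le_right hd hB
        have h5 : cp * (a * e + X * o2 + d) ≤ cp * (a * (B * f2) + X * (2 * B * f3) + d * B) :=
          mul_le_mul_of_nonneg_left (by linarith) hcp
        exact mul_le_mul_of_nonneg_left (by linarith) hB0
    _ = _ := by rw [r4]; ring

/-- the pointwise bound -/
lemma two_key (H : Adm T w ε κ h₁) (H' : Adm T' w' ε' κ' h₁')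
    (hC : CylF m T w h₁ G h (fmeas T w h₁ ν) (fP T w h₁ P))
    (hC' : CylF m T' w' h₁' G' h' (fmeas T' w' h₁' ν) (fP T' w' h₁' P))
    (hk : ODEW.KB k k' K B) (hkl : ∀ s, 0 ≤ s → s ≤ 9 / 16 → 1 ≤ B * k s)
    (hG : BallIn T G z t) (hG' : BallIn T' G' z t) (h2 : Two T T' w w' κ h₁ κ' z t d₀ d₁ τ s)
    (hu : ∀ᵐ Y ∂(fmeas T w h₁ ν), aX T w z Y < t ^ 2 → ‖co T Y‖ ≤ t / 32)
    (hu' : ∀ᵐ Y ∂(fmeas T' w' h₁' ν), aX T' w' z Y < t ^ 2 → ‖co T' Y‖ ≤ μ)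
    (hμt : μ ≤ t) (hμ : 2 * μ + d₀ ≤ h₁) (N : ℝ) :
    ∀ᵐ y ∂ν, k (aX T w z (PsiInv T w h₁ y) / (t / 2) ^ 2) *
        ‖ff T w h₁ z (fP T w h₁ P) N (PsiInv T w h₁ y)‖ ^ 2 ≤
      9 * B ^ 2 * (k (aX T' w' z (PsiInv T' w' h₁' y) / t ^ 2) *
        ‖ff T' w' h₁' z (fP T' w' h₁' P) N (PsiInv T' w' h₁' y)‖ ^ 2) +
      B ^ 2 * cP m * (2 * (N ^ 2 * s ^ 2 + (κ * t) ^ 2 + (κ' * t) ^ 2) *
          (k (aX T w z (PsiInv T w h₁ y) / t ^ 2) *
            (vp T w z (PsiInv T w h₁ y) * ‖om T w (PsiInv T w h₁ y)‖ ^ 2)) +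
        (τ * t) ^ 2 * (K (aX T w z (PsiInv T w h₁ y) / t ^ 2) *
          eP T w (fP T w h₁ P) (PsiInv T w h₁ y)) +
        (1 + N ^ 2) * (d₀ + t * d₁) ^ 2 *
          {Y | aX T w z Y < (t / 2) ^ 2}.indicator (fun _ => (1 : ℝ)) (PsiInv T w h₁ y)) := by
  have ht := h2.t0
  have hw := H.ref
  have hw' := H'.ref
  have hB1 := hk.one
  have hcP : 0 ≤ cP m := (by norm_num : (0:ℝ) ≤ 1352).trans (cP_ge m)
  filter_upwards [ae_pull H hC.proj, ae_pull H (hC.slab_lt hw ht.le hG),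
    ae_pull H' (hC'.slab_lt hw' ht.le hG'), ae_pull H hu, ae_pull H' hu',
    ae_pull H hC.eP_nonneg] with y a1 a2 a3 a4 a5 a6
  have hvp := hw.half_le_vp H.eps_le z (PsiInv T w h₁ y)
  have hX0 : 0 ≤ N ^ 2 * s ^ 2 + (κ * t) ^ 2 + (κ' * t) ^ 2 := by positivity
  have n1 : 0 ≤ k (aX T' w' z (PsiInv T' w' h₁' y) / t ^ 2) *
    ‖ff T' w' h₁' z (fP T' w' h₁' P) N (PsiInv T' w' h₁' y)‖ ^ 2 :=
      mul_nonneg (hk.kern.nonneg _) (sq_nonneg _)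
  have n2 : 0 ≤ K (aX T w z (PsiInv T w h₁ y) / t ^ 2) *
    eP T w (fP T w h₁ P) (PsiInv T w h₁ y) := mul_nonneg (hk.kern.K_nonneg _) a6
  have n3 : 0 ≤ k (aX T w z (PsiInv T w h₁ y) / t ^ 2) *
    (vp T w z (PsiInv T w h₁ y) * ‖om T w (PsiInv T w h₁ y)‖ ^ 2) :=
      mul_nonneg (hk.kern.nonneg _) (mul_nonneg (by linarith) (sq_nonneg _))
  have n4 : 0 ≤ {Y | aX T w z Y < (t / 2) ^ 2}.indicator (fun _ => (1 : ℝ)) (PsiInv T w h₁ y) :=
    indicator_nonneg (fun _ _ => zero_le_one) _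
  by_cases hlt : aX T w z (PsiInv T w h₁ y) < (t / 2) ^ 2
  swap
  · rw [hk.kern.pk.zero (aX T w z (PsiInv T w h₁ y) / (t / 2) ^ 2) (by
      rw [le_div_iff₀ (by positivity), one_mul]; exact not_lt.1 hlt), zero_mul]
    positivity
  have hltt : aX T w z (PsiInv T w h₁ y) < t ^ 2 := hlt.trans_le (by gcongr; linarith)
  obtain ⟨c1, c2⟩ := a2 hltt
  have c3 := a4 hltt
  have c7 := two_geom H H' h2 hlt c3 c2
  obtain ⟨c8, c9⟩ := a3 c7
  have c10 := a5 c7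
  obtain ⟨S, hS, hPS⟩ := a1
  have hPy : P y = S.starProjection := by
    have : fP T w h₁ P (PsiInv T w h₁ y) = P y := by unfold fP; rw [H.Psi_PsiInv]
    rw [← this, hPS]
  obtain ⟨q1, q3⟩ := two_pt H H' h2 hC.dimT hlt c2 c7 c10 c9 hμt hμ hS hPy N
  have k1 : 1 ≤ B * k (aX T' w' z (PsiInv T' w' h₁' y) / t ^ 2) := by
    refine hkl _ (div_nonneg (aX_nonneg _) (by positivity)) ?_
    rw [div_le_iff₀ (by positivity)]
    unfold aX XX
    calc ‖bx T' z (PsiInv T' w' h₁' y)‖ ^ 2 ≤ (3 / 4 * t) ^ 2 := by gcongr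
      _ = 9 / 16 * t ^ 2 := by ring
  have hsY : aX T w z (PsiInv T w h₁ y) / t ^ 2 < 1 / 4 := by
    rw [div_lt_iff₀ (by positivity)]
    calc aX T w z (PsiInv T w h₁ y) < (t / 2) ^ 2 := hlt
      _ = _ := by ring
  have hsY0 : 0 ≤ aX T w z (PsiInv T w h₁ y) / t ^ 2 := div_nonneg (aX_nonneg _) (by positivity)
  have k2 : 1 ≤ B * k (aX T w z (PsiInv T w h₁ y) / t ^ 2) := hkl _ hsY0 (by linarith)
  have k3 : 1 ≤ B * K (aX T w z (PsiInv T w h₁ y) / t ^ 2) := hk.Klow _ hsY0 hsY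
  have k4 : k (aX T w z (PsiInv T w h₁ y) / (t / 2) ^ 2) ≤ B :=
    hk.kB _ (div_nonneg (aX_nonneg _) (by positivity))
  have hD0 : 0 ≤ (1 + N ^ 2) * (d₀ + t * d₁) ^ 2 := by positivity
  refine key_real hB1 hcP hX0 (sq_nonneg (τ * t)) hD0 q1 ?_ ?_ ?_ ?_ ?_
  · exact mul_le_mul_of_nonneg_right k4 (sq_nonneg _)
  · calc _ = 1 * ‖ff T' w' h₁' z (fP T' w' h₁' P) N (PsiInv T' w' h₁' y)‖ ^ 2 := (one_mul _).symm
      _ ≤ (B * k (aX T' w' z (PsiInv T' w' h₁' y) / t ^ 2)) *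
          ‖ff T' w' h₁' z (fP T' w' h₁' P) N (PsiInv T' w' h₁' y)‖ ^ 2 :=
        mul_le_mul_of_nonneg_right k1 (sq_nonneg _)
      _ = _ := by ring
  · calc _ = 1 * eP T w (fP T w h₁ P) (PsiInv T w h₁ y) := (one_mul _).symm
      _ ≤ (B * K (aX T w z (PsiInv T w h₁ y) / t ^ 2)) *
          eP T w (fP T w h₁ P) (PsiInv T w h₁ y) := mul_le_mul_of_nonneg_right k3 a6
      _ = _ := by ring
  · have h0 : ‖om T w (PsiInv T w h₁ y)‖ ^ 2 ≤ 2 * (vp T w z (PsiInv T w h₁ y) *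
        ‖om T w (PsiInv T w h₁ y)‖ ^ 2) := by
      have := mul_le_mul_of_nonneg_right hvp (sq_nonneg ‖om T w (PsiInv T w h₁ y)‖)
      linarith
    have h1 : 0 ≤ vp T w z (PsiInv T w h₁ y) * ‖om T w (PsiInv T w h₁ y)‖ ^ 2 :=
      mul_nonneg (by linarith) (sq_nonneg _)
    calc _ ≤ 2 * (1 * (vp T w z (PsiInv T w h₁ y) * ‖om T w (PsiInv T w h₁ y)‖ ^ 2)) := by
          rw [one_mul]; exact h0
      _ ≤ 2 * ((B * k (aX T w z (PsiInv T w h₁ y) / t ^ 2)) *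
          (vp T w z (PsiInv T w h₁ y) * ‖om T w (PsiInv T w h₁ y)‖ ^ 2)) :=
        mul_le_mul_of_nonneg_left (mul_le_mul_of_nonneg_right k2 h1) (by norm_num)
      _ = _ := by ring
  · exact indicator_of_mem (show PsiInv T w h₁ y ∈ {Y | aX T w z Y < (t / 2) ^ 2} from hlt) _

lemma fin_real {m : ℕ} {t B cp X τ D F0 F1 F2 F3 M q0 : ℝ} (ht : 0 < t)
    (h : F0 ≤ 9 * B ^ 2 * F1 + B ^ 2 * cp * (2 * X * F3 + (τ * t) ^ 2 * F2 + D * M)) :
    (t / 2) ^ (-(m : ℤ)) * F0 ≤ 2 ^ m * B ^ 2 * (9 * (t ^ (-(m : ℤ)) * F1) +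
      cp * (2 * X * (t ^ (-(m : ℤ)) * F3) + τ ^ 2 * (t ^ (2 - (m : ℤ)) * F2) +
        D * (t ^ (-(m : ℤ)) * M))) := by
  have z1 : (t / 2) ^ (-(m : ℤ)) = 2 ^ m * t ^ (-(m : ℤ)) := by
    rw [div_zpow, zpow_neg, zpow_neg, zpow_natCast, zpow_natCast]
    field_simp
  have z2 : t ^ (2 - (m : ℤ)) = t ^ 2 * t ^ (-(m : ℤ)) := by
    rw [sub_eq_add_neg, zpow_add₀ ht.ne']; rfl
  rw [z1, z2]
  have htm : 0 ≤ t ^ (-(m : ℤ)) := by positivity
  calc _ ≤ 2 ^ m * t ^ (-(m : ℤ)) *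
        (9 * B ^ 2 * F1 + B ^ 2 * cp * (2 * X * F3 + (τ * t) ^ 2 * F2 + D * M)) := by gcongr
    _ = _ := by ring

/-- **[B4-PIN] Transfer of the pinching.** -/
theorem pin_transfer (H : Adm T w ε κ h₁) (H' : Adm T' w' ε' κ' h₁')
    (hC : CylF m T w h₁ G h (fmeas T w h₁ ν) (fP T w h₁ P))
    (hC' : CylF m T' w' h₁' G' h' (fmeas T' w' h₁' ν) (fP T' w' h₁' P))
    (hk : ODEW.KB k k' K B) (hkl : ∀ s, 0 ≤ s → s ≤ 9 / 16 → 1 ≤ B * k s)
    (hG : BallIn T G z t) (hG' : BallIn T' G' z t) (h2 : Two T T' w w' κ h₁ κ' z t d₀ d₁ τ s)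
    (hu : ∀ᵐ Y ∂(fmeas T w h₁ ν), aX T w z Y < t ^ 2 → ‖co T Y‖ ≤ t / 32)
    (hu' : ∀ᵐ Y ∂(fmeas T' w' h₁' ν), aX T' w' z Y < t ^ 2 → ‖co T' Y‖ ≤ μ)
    (hμt : μ ≤ t) (hμ : 2 * μ + d₀ ≤ h₁) (N : ℝ) :
    pinF m T w h₁ z k K (fP T w h₁ P) (fmeas T w h₁ ν) N (t / 2) ≤
      2 ^ m * B ^ 2 * (9 * pinF m T' w' h₁' z k K (fP T' w' h₁' P) (fmeas T' w' h₁' ν) N t +
        cP m * (2 * (N ^ 2 * s ^ 2 + (κ * t) ^ 2 + (κ' * t) ^ 2) *
            HF m T w z k (fmeas T w h₁ ν) t +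
          τ ^ 2 * gF m T w z K (fP T w h₁ P) (fmeas T w h₁ ν) t +
          (1 + N ^ 2) * (d₀ + t * d₁) ^ 2 *
            (t ^ (-(m : ℤ)) * (fmeas T w h₁ ν).real {Y | aX T w z Y < (t / 2) ^ 2}))) := by
  haveI := hC.fin
  haveI := hC'.fin
  have ht := h2.t0
  have ht2 : 0 < t / 2 := by positivity
  have hG2 : BallIn T G z (t / 2) := fun x hx hx2 => hG x hx (hx2.trans (by linarith))
  have hkc := hk.kern.pk.continuous
  have hMm : MeasurableSet {Y | aX T w z Y < (t / 2) ^ 2} :=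
    (isOpen_lt (H.ref.continuous_aX z) continuous_const).measurableSet
  have j0 := integrable_pull H
    (hC.intg H (gd_ff H hC ht2.le hG2 N) hkc hk.kern.pk.zero ht2 le_rfl)
  have j1 := integrable_pull H'
    (hC'.intg H' (gd_ff H' hC' ht.le hG' N) hkc hk.kern.pk.zero ht le_rfl)
  have j2 := integrable_pull H
    (hC.intg H (hC.gd_eP H ht.le hG) hk.kern.pK.continuous hk.kern.pK.zero ht le_rfl)
  have j3 := integrable_pull H (hC.intg H (hC.gd_HF H ht.le hG) hkc hk.kern.pk.zero ht le_rfl)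
  have i4 : Integrable ({Y | aX T w z Y < (t / 2) ^ 2}.indicator (fun _ => (1 : ℝ)))
    (fmeas T w h₁ ν) := (integrable_const (1:ℝ)).indicator hMm
  have j4 := integrable_pull H i4
  have hint := integrate_bound j0 j1 j2 j3 j4
    (two_key H H' hC hC' hk hkl hG hG' h2 hu hu' hμt hμ N)
  rw [← integral_pull H (fun Y => k (aX T w z Y / (t / 2) ^ 2) *
      ‖ff T w h₁ z (fP T w h₁ P) N Y‖ ^ 2),
    ← integral_pull H' (fun Y => k (aX T' w' z Y / t ^ 2) *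
      ‖ff T' w' h₁' z (fP T' w' h₁' P) N Y‖ ^ 2),
    ← integral_pull H (fun Y => K (aX T w z Y / t ^ 2) * eP T w (fP T w h₁ P) Y),
    ← integral_pull H (fun Y => k (aX T w z Y / t ^ 2) * (vp T w z Y * ‖om T w Y‖ ^ 2)),
    ← integral_pull H ({Y | aX T w z Y < (t / 2) ^ 2}.indicator (fun _ => (1 : ℝ)))] at hint
  have h4 : ∫ Y, {Y | aX T w z Y < (t / 2) ^ 2}.indicator (fun _ => (1 : ℝ)) Y
      ∂(fmeas T w h₁ ν) = (fmeas T w h₁ ν).real {Y | aX T w z Y < (t / 2) ^ 2} := by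
    rw [integral_indicator hMm, setIntegral_const, smul_eq_mul, mul_one]
  rw [h4] at hint
  rw [← pin_eq H hC hk.kern ht2 hG2 N, ← pin_eq H' hC' hk.kern ht hG' N]
  exact fin_real (q0 := 0) ht hint

end Vale.Agent.P214.BPIN
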