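import Vale.Agent.P214.BCS.Pin
import Vale.Agent.P214.BCS.Low
import Vale.Agent.P214.ODET.Pw

/-!
# P214, Target B, block B4-PIN: comparison of two Fermi charts, pointwise

Two reference graphs `(T, w)`, `(T', w')` and one ambient point `y = Ψ(Y) = Ψ'(Y')`.
If near the foot point `F'` of `y` on the second graph the first graph is `d₀`-close and its tangent
plane `d₁`-close, then the two foot points, the two normal displacements, and the two radial fields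
(projected to the orthogonal complement of a plane `S`) are close.
-/

open Set Filter Topology MeasureTheory Metric
open scoped RealInnerProductSpace ContDiff

set_option linter.all false

namespace Vale.Agent.P214.BPIN

open FV ODE FM BCS

variable {E : Type*} [NormedAddCommGroup E] [InnerProductSpace ℝ E] [FiniteDimensional ℝ E]
  [MeasurableSpace E] [BorelSpace E]

/-- the foot point -/
noncomputable def ftp (T : Submodule ℝ E) (w : E → E) (Y : E) : E := T.starProjection Y + w Y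

section one

variable {T S : Submodule ℝ E} {w : E → E} {ε κ h₁ : ℝ} {z Y : E}

/-- `Ψ = foot + displacement` -/
lemma Psi_eq_ftp (hw : Ref T w ε κ) (h0 : 0 < h₁) (hY : ‖co T Y‖ ≤ h₁) :
    Psi T w h₁ Y = ftp T w Y + om T w Y := by
  rw [Psi, ret_eq h0 hY]
  unfold ftp om
  have := star_add_co T Y
  nth_rewrite 1 [← this]
  abel

lemma star_ftp (hw : Ref T w ε κ) (Y : E) : T.starProjection (ftp T w Y) = T.starProjection Y := by
  unfold ftp
  rw [map_add, star_self, hw.perp, add_zero]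

lemma co_ftp (hw : Ref T w ε κ) (Y : E) : co T (ftp T w Y) = w Y := by
  rw [co_apply, star_ftp hw]
  unfold ftp
  abel

/-- the displacement is normal -/
lemma PS_om (hw : Ref T w ε κ) (Y : E) : PS T w Y (om T w Y) = 0 := by
  have h1 : om T w Y = D0 w Y (co T Y) := by
    rw [D0_apply, hw.fderiv_co, add_zero]
    rfl
  rw [h1, hw.PS_D0, star_co, map_zero]

/-- normal vectors are displacements -/
lemma normal_eq (hw : Ref T w ε κ) {n : E} (hn : PS T w Y n = 0) :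
    n = co T n - adj (fderiv ℝ w Y) (co T n) := by
  have h1 : T.starProjection n = - adj (fderiv ℝ w Y) (co T n) := by
    refine ext_inner_right ℝ fun v => ?_
    rw [hw.adj_fderiv_co, inner_neg_left, inner_adj_left, inner_star]
    have h2 : ⟪n, D0 w Y (T.starProjection v)⟫ = 0 := by
      rw [← hw.PS_D0, ← Ref.inner_PS, hn, inner_zero_left]
    rw [D0_apply, hw.adj_fderiv_star, sub_zero, hw.fderiv_star, inner_add_right] at h2
    linarith
  have h3 := star_add_co T n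
  calc n = T.starProjection n + co T n := h3.symm
    _ = _ := by rw [h1]; abel

lemma norm_star_sub_le (hw : Ref T w ε κ) (X Y : E) :
    ‖w X - w Y‖ ≤ ε * ‖T.starProjection X - T.starProjection Y‖ := by
  rw [← hw.base X, ← hw.base Y]
  exact (convex_univ (𝕜 := ℝ) (E := E)).norm_image_sub_le_of_norm_hasFDerivWithin_le
    (f := w) (f' := fderiv ℝ w) (C := ε) (fun z _ => (hw.diff z).hasFDerivAt.hasFDerivWithinAt)
    (fun z _ => hw.slope z) (mem_univ _) (mem_univ _)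

lemma norm_PS_sub_le (hw : Ref T w ε κ) (X Y v : E) :
    ‖PS T w X v - PS T w Y v‖ ≤ 4 * κ * ‖T.starProjection X - T.starProjection Y‖ * ‖v‖ := by
  have hk := hw.knn
  have h1 : ‖PS T w (T.starProjection X) - PS T w (T.starProjection Y)‖ ≤
      4 * κ * ‖T.starProjection X - T.starProjection Y‖ := by
    refine (convex_univ (𝕜 := ℝ) (E := E)).norm_image_sub_le_of_norm_hasFDerivWithin_le
      (f := PS T w) (f' := fderiv ℝ (PS T w)) (C := 4 * κ)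
      (fun z _ => ((hw.contDiff_PS.differentiable (by simp) z).hasFDerivAt).hasFDerivWithinAt)
      (fun z _ => ?_) (mem_univ _) (mem_univ _)
    refine ContinuousLinearMap.opNorm_le_bound _ (by positivity) fun v => ?_
    refine ContinuousLinearMap.opNorm_le_bound _ (by positivity) fun x => ?_
    exact hw.norm_fderiv_PS_le z v x
  rw [hw.PS_base, hw.PS_base] at h1
  have h2 : PS T w X v - PS T w Y v = (PS T w X - PS T w Y) v := rfl
  rw [h2]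
  exact ((PS T w X - PS T w Y).le_opNorm v).trans (by gcongr)

/-- the Fermi map expands by at least `3/4` -/
lemma norm_sub_le_Psi (H : Adm T w ε κ h₁) (X Y : E) :
    ‖X - Y‖ ≤ 4 / 3 * ‖Psi T w h₁ X - Psi T w h₁ Y‖ := by
  have h1 := (H.ref.approx_Psi H.hpos H.hε H.hκ) X (mem_univ _) Y (mem_univ _)
  have h2 : ((ContinuousLinearEquiv.refl ℝ E : E ≃L[ℝ] E) : E →L[ℝ] E) (X - Y) = X - Y := rfl
  rw [h2] at h1
  have h3 : ‖X - Y‖ ≤ ‖Psi T w h₁ X - Psi T w h₁ Y‖ +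
      ‖Psi T w h₁ X - Psi T w h₁ Y - (X - Y)‖ := by
    calc ‖X - Y‖ = ‖(Psi T w h₁ X - Psi T w h₁ Y) -
          (Psi T w h₁ X - Psi T w h₁ Y - (X - Y))‖ := by congr 1; abel
      _ ≤ _ := norm_sub_le _ _
  have h4 : ((1 / 4 : NNReal) : ℝ) = 1 / 4 := by norm_num
  rw [h4] at h1
  linarith

/-- the radial field is `PS bx` up to `κ |u| |bx|` -/
lemma norm_rh_sub_le (H : Adm T w ε κ h₁) (hY : ‖co T Y‖ < h₁) :
    ‖rh T w h₁ z Y - PS T w Y (bx T z Y)‖ ≤ 4 / 3 * (κ * ‖co T Y‖) * ‖bx T z Y‖ := by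
  have h1 := norm_Jm_sub_J0 H hY (bx T z Y)
  rw [adj_J0_eq H.ref Y (starProjection_bx T z Y)] at h1
  exact h1

end one

section two

variable {T T' S : Submodule ℝ E} {w w' : E → E} {ε κ h₁ ε' κ' h₁' : ℝ} {z Y Y' : E}
  {d₀ d₁ : ℝ}

variable (H : Adm T w ε κ h₁) (H' : Adm T' w' ε' κ' h₁')
  (hY : ‖co T Y‖ ≤ h₁) (hY' : ‖co T' Y'‖ ≤ h₁') (hΨ : Psi T w h₁ Y = Psi T' w' h₁' Y')
  (hd₀ : ‖co T (ftp T' w' Y') - w (ftp T' w' Y')‖ ≤ d₀)
  (hd₁ : ‖PS T w (ftp T' w' Y') - PS T' w' Y'‖ ≤ d₁)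
  (hsm : ‖om T' w' Y'‖ + d₀ ≤ h₁)

include H H' hY hY' hΨ hd₀ hd₁ hsm

/-- **Comparison of the foot points**, base part. -/
theorem norm_star_sub_ftp_le :
    ‖T.starProjection Y - T.starProjection (ftp T' w' Y')‖ ≤
      4 / 3 * (d₀ + d₁ * ‖om T' w' Y'‖) := by
  have hw := H.ref
  have hw' := H'.ref
  set F := ftp T' w' Y' with hF
  set n := om T' w' Y' with hn
  set q := ftp T w F with hq
  have hy : Psi T' w' h₁' Y' = F + n := Psi_eq_ftp hw' H'.hpos hY'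
  have hFq : F - q = co T F - w F := by
    rw [hq, co_apply]
    unfold ftp
    abel
  have hFqn : ‖F - q‖ ≤ d₀ := by rw [hFq]; exact hd₀
  have hd0 : 0 ≤ d₀ := (norm_nonneg _).trans hFqn
  have hd1 : 0 ≤ d₁ := (norm_nonneg _).trans hd₁
  set g := Psi T' w' h₁' Y' - q with hg
  have hg2 : g = n + (F - q) := by rw [hg, hy]; abel
  set n₁ := g - PS T w F g with hn₁
  have hn₁0 : PS T w F n₁ = 0 := by rw [hn₁, map_sub, Ref.PS_self, sub_self]
  set Y₁ := T.starProjection F + co T n₁ with hY₁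
  have c1 : co T Y₁ = co T n₁ := by
    rw [hY₁, map_add, co_star, zero_add, co_self]
  have c2 : T.starProjection Y₁ = T.starProjection F := by
    rw [hY₁, map_add, star_self, star_co, add_zero]
  have c3 : ‖co T Y₁‖ ≤ h₁ := by
    rw [c1]
    refine (norm_co_le T n₁).trans ?_
    have h1 : ‖n₁‖ ≤ ‖g‖ := norm_co_le (planeOf T w F) g
    refine h1.trans ((?_ : ‖g‖ ≤ ‖n‖ + d₀).trans hsm)
    rw [hg2]
    exact (norm_add_le _ _).trans (by gcongr)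
  have c4 : Psi T w h₁ Y₁ = q + n₁ := by
    rw [Psi_eq_ftp hw H.hpos c3]
    have e1 : ftp T w Y₁ = q := by
      unfold ftp
      rw [c2, hq]
      unfold ftp
      rw [← hw.base Y₁, c2, hw.base F]
    have e2 : om T w Y₁ = n₁ := by
      unfold om
      rw [c1, ← hw.fderiv_base Y₁, c2, hw.fderiv_base F]
      exact (normal_eq hw hn₁0).symm
    rw [e1, e2]
  have c5 : Psi T w h₁ Y - Psi T w h₁ Y₁ = PS T w F g := by
    rw [c4, hΨ, hn₁]
    have : Psi T' w' h₁' Y' = q + g := by rw [hg]; abel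
    rw [this]; abel
  have c6 : ‖PS T w F g‖ ≤ d₀ + d₁ * ‖n‖ := by
    have e1 : PS T w F g = (PS T w F n - PS T' w' Y' n) + PS T w F (F - q) := by
      rw [hg2, map_add, PS_om hw', sub_zero]
    rw [e1]
    have h1 : ‖PS T w F n - PS T' w' Y' n‖ ≤ d₁ * ‖n‖ := by
      have : PS T w F n - PS T' w' Y' n = (PS T w F - PS T' w' Y') n := rfl
      rw [this]
      exact ((PS T w F - PS T' w' Y').le_opNorm n).trans (by gcongr)
    have h2 : ‖PS T w F (F - q)‖ ≤ d₀ := (norm_star_le _ _).trans hFqn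
    calc _ ≤ d₁ * ‖n‖ + d₀ := (norm_add_le _ _).trans (add_le_add h1 h2)
      _ = _ := by ring
  have c7 := norm_sub_le_Psi H Y Y₁
  rw [c5] at c7
  rw [← c2, ← map_sub]
  calc _ ≤ ‖Y - Y₁‖ := norm_star_le T _
    _ ≤ 4 / 3 * ‖PS T w F g‖ := c7
    _ ≤ _ := by gcongr

/-- **Comparison of the foot points.** -/
theorem norm_ftp_sub_le :
    ‖ftp T w Y - ftp T' w' Y'‖ ≤ 5 / 2 * (d₀ + d₁ * ‖om T' w' Y'‖) := by
  have hw := H.ref
  have h1 := norm_star_sub_ftp_le H H' hY hY' hΨ hd₀ hd₁ hsm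
  have hd0 : 0 ≤ d₀ := (norm_nonneg _).trans hd₀
  have hd1 : 0 ≤ d₁ := (norm_nonneg _).trans hd₁
  have he := H.eps_le
  have he0 := hw.eps_nonneg
  set F := ftp T' w' Y' with hF
  set η := d₀ + d₁ * ‖om T' w' Y'‖ with hη
  have hη0 : d₀ ≤ η := by
    have : 0 ≤ d₁ * ‖om T' w' Y'‖ := by positivity
    linarith
  have e1 : ftp T w Y - F = (T.starProjection Y - T.starProjection F) + (w Y - w F) -
      (co T F - w F) := by
    rw [co_apply]
    unfold ftp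
    abel
  have h2 := norm_star_sub_le hw Y F
  rw [e1]
  calc _ ≤ ‖T.starProjection Y - T.starProjection F‖ + ‖w Y - w F‖ + ‖co T F - w F‖ :=
        (norm_sub_le _ _).trans (by gcongr; exact norm_add_le _ _)
    _ ≤ 4 / 3 * η + 1 / 16 * (4 / 3 * η) + η := by
        have h3 : ‖w Y - w F‖ ≤ 1 / 16 * (4 / 3 * η) := h2.trans (by gcongr)
        have h4 : ‖co T F - w F‖ ≤ η := hd₀.trans hη0
        gcongr
    _ ≤ 5 / 2 * η := by linarith [hη0, hd0]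

/-- **Comparison of the displacements.** -/
theorem norm_om_sub_le :
    ‖om T w Y - om T' w' Y'‖ ≤ 5 / 2 * (d₀ + d₁ * ‖om T' w' Y'‖) := by
  have h1 := norm_ftp_sub_le H H' hY hY' hΨ hd₀ hd₁ hsm
  have e1 : om T w Y - om T' w' Y' = -(ftp T w Y - ftp T' w' Y') := by
    have h2 := Psi_eq_ftp H.ref H.hpos hY
    have h3 := Psi_eq_ftp H'.ref H'.hpos hY'
    rw [hΨ, h3] at h2
    have h4 : om T w Y = ftp T' w' Y' + om T' w' Y' - ftp T w Y := by rw [h2]; abel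
    rw [h4]; abel
  rw [e1, norm_neg]
  exact h1

end two

section radial

variable {T T' S : Submodule ℝ E} {w w' : E → E} {ε κ h₁ ε' κ' h₁' : ℝ} {z Y Y' : E}
  {d₀ d₁ : ℝ}

variable (H : Adm T w ε κ h₁) (H' : Adm T' w' ε' κ' h₁')
  (hY : ‖co T Y‖ < h₁) (hY' : ‖co T' Y'‖ < h₁') (hΨ : Psi T w h₁ Y = Psi T' w' h₁' Y')
  (hd₀ : ‖co T (ftp T' w' Y') - w (ftp T' w' Y')‖ ≤ d₀)
  (hd₁ : ‖PS T w (ftp T' w' Y') - PS T' w' Y'‖ ≤ d₁)
  (hsm : ‖om T' w' Y'‖ + d₀ ≤ h₁)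

include H H' hY hY' hΨ hd₀ hd₁ hsm

/-- **Comparison of the base positions.** -/
theorem norm_bx_sub_le {t τ : ℝ} (ht : 0 < t) (hb' : ‖bx T' z Y'‖ ≤ t) (hτ0 : 0 ≤ τ)
    (hτ : ∀ v, ‖T.starProjection v - T'.starProjection v‖ ≤ τ * ‖v‖)
    (hz' : ‖w' z - co T' z‖ ≤ t / 2) :
    ‖bx T z Y - bx T' z Y'‖ ≤ 5 / 2 * (d₀ + d₁ * ‖om T' w' Y'‖) + 2 * τ * t := by
  have hw := H.ref
  have hw' := H'.ref
  have he := H'.eps_le
  have he0 := hw'.eps_nonneg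
  have h1 := norm_ftp_sub_le H H' hY.le hY'.le hΨ hd₀ hd₁ hsm
  set F := ftp T' w' Y' with hF
  have e1 : bx T z Y - bx T' z Y' = T.starProjection (ftp T w Y - F) +
      (T.starProjection (F - z) - T'.starProjection (F - z)) := by
    have a1 : bx T z Y = T.starProjection (ftp T w Y - z) := by
      rw [bx_eq, map_sub, star_ftp hw]
    have a2 : bx T' z Y' = T'.starProjection (F - z) := by
      rw [bx_eq, map_sub, hF, star_ftp hw']
    rw [a1, a2]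
    have : ftp T w Y - z = (ftp T w Y - F) + (F - z) := by abel
    rw [this, map_add]
    abel
  have hFz : ‖F - z‖ ≤ 2 * t := by
    have b1 : F - z = bx T' z Y' + ((w' Y' - w' z) + (w' z - co T' z)) := by
      rw [bx_eq, co_apply, hF]
      unfold ftp
      abel
    have b2 := norm_star_sub_le hw' Y' z
    have b3 : T'.starProjection Y' - T'.starProjection z = bx T' z Y' := (bx_eq _ _ _).symm
    rw [b3] at b2
    rw [b1]
    calc _ ≤ ‖bx T' z Y'‖ + (‖w' Y' - w' z‖ + ‖w' z - co T' z‖) :=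
          (norm_add_le _ _).trans (by gcongr; exact norm_add_le _ _)
      _ ≤ t + (1 / 16 * t + t / 2) := by
          gcongr
          exact b2.trans (by gcongr)
      _ ≤ 2 * t := by linarith
  rw [e1]
  refine (norm_add_le _ _).trans (add_le_add ((norm_star_le T _).trans h1) ?_)
  refine (hτ (F - z)).trans ?_
  calc τ * ‖F - z‖ ≤ τ * (2 * t) := by gcongr
    _ = _ := by ring

/-- **Comparison of the radial fields**, orthogonal to `S`. -/
theorem norm_co_rh_sub_le {t τ : ℝ} (ht : 0 < t) (hb' : ‖bx T' z Y'‖ ≤ t) (hτ0 : 0 ≤ τ)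
    (hτ : ∀ v, ‖T.starProjection v - T'.starProjection v‖ ≤ τ * ‖v‖)
    (hz' : ‖w' z - co T' z‖ ≤ t / 2) (hκ : κ * t ≤ 1)
    (hS : Module.finrank ℝ S = Module.finrank ℝ T) :
    ‖co S (rh T w h₁ z Y) - co S (rh T' w' h₁' z Y')‖ ≤
      2 * τ * t * √(FM.eS T w Y S.starProjection) +
      (5 / 2 * √(FM.eS T w Y S.starProjection) + 16 / 3) * (d₀ + d₁ * ‖om T' w' Y'‖) +
      d₁ * t + 4 / 3 * (κ * ‖co T Y‖ * ‖bx T z Y‖ + κ' * ‖co T' Y'‖ * t) := by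
  have hw := H.ref
  have hw' := H'.ref
  have hk := hw.knn
  have hk' := hw'.knn
  have heS : 0 ≤ FM.eS T w Y S.starProjection := tilt_nonneg S (planeOf T w Y)
  have hd0 : 0 ≤ d₀ := (norm_nonneg _).trans hd₀
  have hd1 : 0 ≤ d₁ := (norm_nonneg _).trans hd₁
  have g1 := norm_rh_sub_le (z := z) H hY
  have g2 := norm_rh_sub_le (z := z) H' hY'
  have g3 := norm_bx_sub_le H H' hY hY' hΨ hd₀ hd₁ hsm ht hb' hτ0 hτ hz'
  have g4 := norm_star_sub_ftp_le H H' hY.le hY'.le hΨ hd₀ hd₁ hsm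
  have g5 := norm_PS_sub_le hw Y (ftp T' w' Y') (bx T' z Y')
  set F := ftp T' w' Y' with hF
  set η := d₀ + d₁ * ‖om T' w' Y'‖ with hη
  have hη0 : 0 ≤ η := by positivity
  set b := bx T z Y with hb
  set b' := bx T' z Y' with hbb
  set r := rh T w h₁ z Y with hr
  set r' := rh T' w' h₁' z Y' with hr'
  set e := FM.eS T w Y S.starProjection with he
  have e1 : co S r - co S r' = co S (PS T w Y (b - b')) + (co S (r - PS T w Y b) -
      co S (r' - PS T' w' Y' b') + co S (PS T w Y b' - PS T w F b') +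
      co S (PS T w F b' - PS T' w' Y' b')) := by
    simp only [map_sub]
    abel
  have f1 : ‖co S (PS T w Y (b - b'))‖ ≤ √e * ‖b - b'‖ := by
    have h1 := ODET.norm_sq_co_PS_le H S hS Y (PS T w Y (b - b')) (Ref.PS_self _ _)
    have h2 := ODET.sqrt_le_of_sq (norm_nonneg _) heS h1
    refine h2.trans ?_
    gcongr
    exact norm_star_le _ _
  have f2 : ‖co S (r - PS T w Y b)‖ ≤ 4 / 3 * (κ * ‖co T Y‖) * ‖b‖ := (norm_co_le S _).trans g1
  have f3 : ‖co S (r' - PS T' w' Y' b')‖ ≤ 4 / 3 * (κ' * ‖co T' Y'‖) * t :=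
    (norm_co_le S _).trans (g2.trans (by gcongr))
  have f4 : ‖co S (PS T w Y b' - PS T w F b')‖ ≤ 16 / 3 * η := by
    refine (norm_co_le S _).trans (g5.trans ?_)
    calc 4 * κ * ‖T.starProjection Y - T.starProjection F‖ * ‖b'‖ ≤
          4 * κ * (4 / 3 * η) * t := by gcongr
      _ = 16 / 3 * η * (κ * t) := by ring
      _ ≤ 16 / 3 * η * 1 := by gcongr
      _ = _ := mul_one _
  have f5 : ‖co S (PS T w F b' - PS T' w' Y' b')‖ ≤ d₁ * t := by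
    refine (norm_co_le S _).trans ?_
    have : PS T w F b' - PS T' w' Y' b' = (PS T w F - PS T' w' Y') b' := rfl
    rw [this]
    exact ((PS T w F - PS T' w' Y').le_opNorm b').trans (by gcongr)
  rw [e1]
  calc _ ≤ √e * (5 / 2 * η + 2 * τ * t) + (4 / 3 * (κ * ‖co T Y‖) * ‖b‖ +
        4 / 3 * (κ' * ‖co T' Y'‖) * t + 16 / 3 * η + d₁ * t) := by
        refine (norm_add_le _ _).trans (add_le_add (f1.trans (by gcongr)) ?_)
        refine (norm_add_le _ _).trans (add_le_add ?_ f5)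
        refine (norm_add_le _ _).trans (add_le_add ?_ f4)
        exact (norm_sub_le _ _).trans (add_le_add f2 f3)
    _ = _ := by ring

end radial

/-! ### the pinching field -/

lemma pin_vec {v v' N : ℝ} (r r' o o' : E) (hv : 0 < v) (hv' : 0 < v') (hv1 : v ≤ 1)
    (hv1' : v' ≤ 1) (hv2 : 1 / 2 ≤ v ^ 2) :
    ‖v⁻¹ • r + (N * v) • o‖ ≤
      3 / 2 * (‖v'⁻¹ • r' + (N * v') • o'‖ + |N| * |v ^ 2 - v' ^ 2| * ‖o'‖ + ‖r - r'‖) +
        |N| * ‖o - o'‖ := by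
  have hvi : v⁻¹ ≤ 3 / 2 := by
    have h1 : 2 / 3 ≤ v := by nlinarith
    rw [inv_le_comm₀ hv (by norm_num)]
    norm_num
    exact h1
  have hvi0 : 0 ≤ v⁻¹ := by positivity
  set f' := v'⁻¹ • r' + (N * v') • o' with hf'
  have e1 : v⁻¹ • r + (N * v) • o = v⁻¹ • (v' • f' + (N * (v ^ 2 - v' ^ 2)) • o' + (r - r')) +
      (N * v) • (o - o') := by
    have e2 : v' • f' = r' + (N * v' ^ 2) • o' := by
      rw [hf', smul_add, smul_smul, smul_smul, mul_inv_cancel₀ hv'.ne', one_smul]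
      congr 2
      ring
    rw [e2]
    have e3 : v⁻¹ • (r' + (N * v' ^ 2) • o' + (N * (v ^ 2 - v' ^ 2)) • o' + (r - r')) =
        v⁻¹ • r + (N * v) • o' := by
      have e4 : r' + (N * v' ^ 2) • o' + (N * (v ^ 2 - v' ^ 2)) • o' + (r - r') =
          r + (N * v ^ 2) • o' := by
        rw [mul_sub, sub_smul]; abel
      rw [e4, smul_add, smul_smul]
      congr 2
      field_simp
    rw [e3, smul_sub]
    abel
  rw [e1]
  have h1 : ‖v' • f'‖ ≤ ‖f'‖ := by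
    rw [norm_smul, Real.norm_eq_abs, abs_of_pos hv']
    nlinarith [norm_nonneg f']
  have h2 : ‖(N * (v ^ 2 - v' ^ 2)) • o'‖ = |N| * |v ^ 2 - v' ^ 2| * ‖o'‖ := by
    rw [norm_smul, Real.norm_eq_abs, abs_mul]
  have h3 : ‖(N * v) • (o - o')‖ ≤ |N| * ‖o - o'‖ := by
    rw [norm_smul, Real.norm_eq_abs, abs_mul, abs_of_pos hv]
    have : 0 ≤ |N| * ‖o - o'‖ := by positivity
    nlinarith
  have h4 : ‖v⁻¹ • (v' • f' + (N * (v ^ 2 - v' ^ 2)) • o' + (r - r'))‖ ≤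
      3 / 2 * (‖f'‖ + |N| * |v ^ 2 - v' ^ 2| * ‖o'‖ + ‖r - r'‖) := by
    rw [norm_smul, Real.norm_eq_abs, abs_of_nonneg hvi0]
    refine mul_le_mul hvi ?_ (norm_nonneg _) (by norm_num)
    calc _ ≤ ‖v' • f'‖ + ‖(N * (v ^ 2 - v' ^ 2)) • o'‖ + ‖r - r'‖ :=
          (norm_add_le _ _).trans (by gcongr; exact norm_add_le _ _)
      _ ≤ _ := by rw [h2]; gcongr
  exact (norm_add_le _ _).trans (add_le_add h4 h3)

/-- the constant of the pointwise comparison -/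
noncomputable def cP (m : ℕ) : ℝ := 20 * (5 * m + 24) ^ 2

lemma cP_ge (m : ℕ) : 1352 ≤ cP m := by
  unfold cP
  have : (0 : ℝ) ≤ (m : ℝ) := Nat.cast_nonneg _
  nlinarith

lemma sq2 (a b : ℝ) : (a + b) ^ 2 ≤ 2 * a ^ 2 + 2 * b ^ 2 := by
  linarith [sq_nonneg (a - b), add_sq a b, sub_sq a b]

lemma sq3 (a b c : ℝ) : (a + b + c) ^ 2 ≤ 3 * a ^ 2 + 3 * b ^ 2 + 3 * c ^ 2 := by
  have h : (a + b + c) ^ 2 = a ^ 2 + b ^ 2 + c ^ 2 + 2 * a * b + 2 * a * c + 2 * b * c := by ring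
  linarith [sq_nonneg (a - b), sub_sq a b, sq_nonneg (a - c), sub_sq a c, sq_nonneg (b - c),
    sub_sq b c]

lemma sq4 (a b c d : ℝ) :
    (a + b + c + d) ^ 2 ≤ 4 * a ^ 2 + 4 * b ^ 2 + 4 * c ^ 2 + 4 * d ^ 2 := by
  have h1 := sq2 (a + b) (c + d)
  have h2 := sq2 a b
  have h3 := sq2 c d
  have h4 : (a + b + c + d) ^ 2 = (a + b + (c + d)) ^ 2 := by ring
  linarith

/-- real part of the pointwise comparison -/
lemma pin_real {m : ℕ} {F F' N s e x x' τt D oo : ℝ} (hF : 0 ≤ F) (hF' : 0 ≤ F') (hs : 0 ≤ s)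
    (hx : 0 ≤ x) (hx' : 0 ≤ x') (hτ : 0 ≤ τt) (hD : 0 ≤ D) (ho : 0 ≤ oo) (he : 0 ≤ e)
    (h : F ≤ 3 / 2 * F' + 3 * τt * √e + (3 / 2 * |N| * s + 2 * x + 2 * x') * oo +
      (3 / 2 * (5 * m + 24) + 13 * |N|) * D) :
    F ^ 2 ≤ 9 * F' ^ 2 + cP m * (τt ^ 2 * e + (N ^ 2 * s ^ 2 + x ^ 2 + x' ^ 2) * oo ^ 2 +
      (1 + N ^ 2) * D ^ 2) := by
  have hm : (0 : ℝ) ≤ (m : ℝ) := Nat.cast_nonneg _
  have hc := cP_ge m
  have hN0 := abs_nonneg N
  have hse : 0 ≤ √e := Real.sqrt_nonneg _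
  set a := 3 / 2 * F' with ha
  set b := 3 * τt * √e with hb
  set c := (3 / 2 * |N| * s + 2 * x + 2 * x') * oo with hcc
  set d := (3 / 2 * (5 * m + 24) + 13 * |N|) * D with hd
  have h1 : F ^ 2 ≤ (a + b + c + d) ^ 2 := by gcongr
  have h2 := sq4 a b c d
  have h3 : 4 * a ^ 2 = 9 * F' ^ 2 := by rw [ha]; ring
  have h4 : 4 * b ^ 2 ≤ cP m * (τt ^ 2 * e) := by
    have e1 : b ^ 2 = 9 * (τt ^ 2 * e) := by
      rw [hb, mul_pow, mul_pow, Real.sq_sqrt he]; ring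
    rw [e1]
    have h0 : 0 ≤ τt ^ 2 * e := by positivity
    calc 4 * (9 * (τt ^ 2 * e)) = 36 * (τt ^ 2 * e) := by ring
      _ ≤ cP m * (τt ^ 2 * e) := mul_le_mul_of_nonneg_right (by linarith) h0
  have h5 : 4 * c ^ 2 ≤ cP m * ((N ^ 2 * s ^ 2 + x ^ 2 + x' ^ 2) * oo ^ 2) := by
    have e1 : (3 / 2 * |N| * s + 2 * x + 2 * x') ^ 2 ≤
        12 * (N ^ 2 * s ^ 2 + x ^ 2 + x' ^ 2) := by
      have e2 : N ^ 2 = |N| ^ 2 := (sq_abs N).symm
      rw [e2]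
      have e5 := sq3 (3 / 2 * |N| * s) (2 * x) (2 * x')
      have e6 : 0 ≤ |N| ^ 2 * s ^ 2 := by positivity
      have e7 : (3 / 2 * |N| * s) ^ 2 = 9 / 4 * (|N| ^ 2 * s ^ 2) := by ring
      have e8 : (2 * x) ^ 2 = 4 * x ^ 2 := by ring
      have e9 : (2 * x') ^ 2 = 4 * x' ^ 2 := by ring
      rw [e7, e8, e9] at e5
      linarith
    have e3 : c ^ 2 = (3 / 2 * |N| * s + 2 * x + 2 * x') ^ 2 * oo ^ 2 := by rw [hcc]; ring
    rw [e3]
    have e4 : 0 ≤ (N ^ 2 * s ^ 2 + x ^ 2 + x' ^ 2) * oo ^ 2 := by positivity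
    calc 4 * ((3 / 2 * |N| * s + 2 * x + 2 * x') ^ 2 * oo ^ 2) ≤
          4 * (12 * (N ^ 2 * s ^ 2 + x ^ 2 + x' ^ 2) * oo ^ 2) := by gcongr
      _ = 48 * ((N ^ 2 * s ^ 2 + x ^ 2 + x' ^ 2) * oo ^ 2) := by ring
      _ ≤ _ := by
        refine mul_le_mul_of_nonneg_right ?_ e4
        linarith
  have h6 : 4 * d ^ 2 ≤ cP m * ((1 + N ^ 2) * D ^ 2) := by
    have e1 : (3 / 2 * (5 * (m : ℝ) + 24) + 13 * |N|) ^ 2 ≤
        5 * (5 * m + 24) ^ 2 * (1 + N ^ 2) := by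
      have e2 : N ^ 2 = |N| ^ 2 := (sq_abs N).symm
      rw [e2]
      have k1 : (24 : ℝ) ^ 2 ≤ (5 * m + 24) ^ 2 := by gcongr; linarith
      have k2 : 0 ≤ |N| ^ 2 * ((5 * (m:ℝ) + 24) ^ 2 - 24 ^ 2) :=
        mul_nonneg (sq_nonneg _) (by linarith)
      have k3 := sq2 (3 / 2 * (5 * (m : ℝ) + 24)) (13 * |N|)
      have k4 : (3 / 2 * (5 * (m : ℝ) + 24)) ^ 2 = 9 / 4 * (5 * (m : ℝ) + 24) ^ 2 := by ring
      have k5 : (13 * |N|) ^ 2 = 169 * |N| ^ 2 := by ring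
      rw [k4, k5] at k3
      have k6 : 0 ≤ |N| ^ 2 := sq_nonneg _
      have k7 : |N| ^ 2 * ((5 * (m:ℝ) + 24) ^ 2 - 24 ^ 2) =
        (5 * (m:ℝ) + 24) ^ 2 * |N| ^ 2 - 576 * |N| ^ 2 := by ring
      rw [k7] at k2
      have k8 : 5 * (5 * (m:ℝ) + 24) ^ 2 * (1 + |N| ^ 2) = 5 * (5 * (m:ℝ) + 24) ^ 2 +
        5 * ((5 * (m:ℝ) + 24) ^ 2 * |N| ^ 2) := by ring
      rw [k8]
      have k9 : 0 ≤ (5 * (m:ℝ) + 24) ^ 2 := sq_nonneg _
      linarith
    have e3 : d ^ 2 = (3 / 2 * (5 * (m : ℝ) + 24) + 13 * |N|) ^ 2 * D ^ 2 := by rw [hd]; ring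
    rw [e3]
    calc 4 * ((3 / 2 * (5 * (m : ℝ) + 24) + 13 * |N|) ^ 2 * D ^ 2) ≤
          4 * (5 * (5 * m + 24) ^ 2 * (1 + N ^ 2) * D ^ 2) := by gcongr
      _ = _ := by unfold cP; ring
  rw [mul_add, mul_add]
  linarith

section final

variable {T T' S : Submodule ℝ E} {w w' : E → E} {ε κ h₁ ε' κ' h₁' : ℝ} {z Y Y' : E}
  {d₀ d₁ : ℝ} {P P' : E → E →L[ℝ] E}

/-- **Pointwise comparison of the pinching fields.** -/
theorem norm_ff_le (H : Adm T w ε κ h₁) (H' : Adm T' w' ε' κ' h₁')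
    (hY : ‖co T Y‖ < h₁) (hY' : ‖co T' Y'‖ < h₁') (hΨ : Psi T w h₁ Y = Psi T' w' h₁' Y')
    (hd₀ : ‖co T (ftp T' w' Y') - w (ftp T' w' Y')‖ ≤ d₀)
    (hd₁ : ‖PS T w (ftp T' w' Y') - PS T' w' Y'‖ ≤ d₁)
    (hsm : ‖om T' w' Y'‖ + d₀ ≤ h₁) {t τ s : ℝ} (ht : 0 < t) (hb : ‖bx T z Y‖ ≤ t)
    (hb' : ‖bx T' z Y'‖ ≤ t) (ho' : ‖om T' w' Y'‖ ≤ 2 * t) (hτ0 : 0 ≤ τ)
    (hτ : ∀ v, ‖T.starProjection v - T'.starProjection v‖ ≤ τ * ‖v‖)
    (hz' : ‖w' z - co T' z‖ ≤ t / 2) (hκ : κ * t ≤ 1) (hκ' : κ' * t ≤ 1)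
    (hS : Module.finrank ℝ S = Module.finrank ℝ T) (hs1 : s ≤ 1)
    (hs : ‖fderiv ℝ w Y‖ ^ 2 ≤ s) (hs' : ‖fderiv ℝ w' Y'‖ ^ 2 ≤ s)
    (hP : P Y = S.starProjection) (hP' : P' Y' = S.starProjection) (N : ℝ) :
    ‖ff T w h₁ z P N Y‖ ^ 2 ≤ 9 * ‖ff T' w' h₁' z P' N Y'‖ ^ 2 +
      cP (Module.finrank ℝ T) * ((τ * t) ^ 2 * FM.eS T w Y S.starProjection +
        (N ^ 2 * s ^ 2 + (κ * t) ^ 2 + (κ' * t) ^ 2) * ‖om T w Y‖ ^ 2 +
        (1 + N ^ 2) * (d₀ + t * d₁) ^ 2) := by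
  have hw := H.ref
  have hw' := H'.ref
  have hk := hw.knn
  have hk' := hw'.knn
  have heS : 0 ≤ FM.eS T w Y S.starProjection := tilt_nonneg S (planeOf T w Y)
  have heS1 : FM.eS T w Y S.starProjection ≤ Module.finrank ℝ T := by
    rw [← hS]; exact tilt_le S (planeOf T w Y)
  have hd0 : 0 ≤ d₀ := (norm_nonneg _).trans hd₀
  have hd1 : 0 ≤ d₁ := (norm_nonneg _).trans hd₁
  have hs0 : 0 ≤ s := (sq_nonneg _).trans hs
  set D := d₀ + t * d₁ with hD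
  have hD0 : 0 ≤ D := by positivity
  have g1 := norm_om_sub_le H H' hY.le hY'.le hΨ hd₀ hd₁ hsm
  have g2 := norm_co_rh_sub_le H H' hY hY' hΨ hd₀ hd₁ hsm ht hb' hτ0 hτ hz' hκ hS
  have hη : d₀ + d₁ * ‖om T' w' Y'‖ ≤ 2 * D := by
    have : d₁ * ‖om T' w' Y'‖ ≤ d₁ * (2 * t) := by gcongr
    rw [hD]; linarith
  have hη0 : 0 ≤ d₀ + d₁ * ‖om T' w' Y'‖ := by positivity
  set η := d₀ + d₁ * ‖om T' w' Y'‖ with hηd
  have hδ : ‖om T w Y - om T' w' Y'‖ ≤ 5 * D := by linarith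
  have ho1 : ‖om T' w' Y'‖ ≤ ‖om T w Y‖ + 5 * D := by
    calc ‖om T' w' Y'‖ = ‖om T w Y - (om T w Y - om T' w' Y')‖ := by congr 1; abel
      _ ≤ ‖om T w Y‖ + ‖om T w Y - om T' w' Y'‖ := norm_sub_le _ _
      _ ≤ _ := by linarith
  have hu : ‖co T Y‖ ≤ ‖om T w Y‖ := by
    have := (ODEF.norm_sq_omF H Y).1
    exact (sq_le_sq₀ (norm_nonneg _) (norm_nonneg _)).1 this
  have hu' : ‖co T' Y'‖ ≤ ‖om T' w' Y'‖ := by
    have := (ODEF.norm_sq_omF H' Y').1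
    exact (sq_le_sq₀ (norm_nonneg _) (norm_nonneg _)).1 this
  have hv := hw.half_le_vp H.eps_le z Y
  have hv' := hw'.half_le_vp H'.eps_le z Y'
  have hv1 : vp T w z Y ≤ 1 := Ref.vp_le_one z Y
  have hv1' : vp T' w' z Y' ≤ 1 := Ref.vp_le_one z Y'
  have hvs := (BCS.one_sub_vp_le hw z Y).trans hs
  have hvs' := (BCS.one_sub_vp_le hw' z Y').trans hs'
  have hvv : |vp T w z Y - vp T' w' z Y'| ≤ s := by
    rw [abs_le]; constructor <;> linarith
  set e := FM.eS T w Y S.starProjection with he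
  set oo := ‖om T w Y‖ with hoo
  have hoo0 : 0 ≤ oo := norm_nonneg _
  have key := pin_vec (v := √(vp T w z Y)) (v' := √(vp T' w' z Y')) (N := N)
    (rh T w h₁ z Y - P Y (rh T w h₁ z Y)) (rh T' w' h₁' z Y' - P' Y' (rh T' w' h₁' z Y'))
    (om T w Y) (om T' w' Y') (Real.sqrt_pos.2 (by linarith)) (Real.sqrt_pos.2 (by linarith))
    (Real.sqrt_le_one.2 hv1) (Real.sqrt_le_one.2 hv1') (by rw [Real.sq_sqrt (by linarith)]; exact hv)
  rw [Real.sq_sqrt (by linarith), Real.sq_sqrt (by linarith)] at key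
  have k1 : (rh T w h₁ z Y - P Y (rh T w h₁ z Y)) -
      (rh T' w' h₁' z Y' - P' Y' (rh T' w' h₁' z Y')) =
      co S (rh T w h₁ z Y) - co S (rh T' w' h₁' z Y') := by rw [hP, hP']; rfl
  rw [k1] at key
  refine pin_real (norm_nonneg _) (norm_nonneg _) hs0 (by positivity : 0 ≤ κ * t)
    (by positivity : 0 ≤ κ' * t) (by positivity : 0 ≤ τ * t) hD0 hoo0 heS ?_
  refine key.trans ?_
  have hse : 0 ≤ √e := Real.sqrt_nonneg _
  have hsm' : √e ≤ (Module.finrank ℝ T : ℝ) + 1 := by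
    have hm : (0 : ℝ) ≤ (Module.finrank ℝ T : ℝ) := Nat.cast_nonneg _
    refine Real.sqrt_le_iff.2 ⟨by linarith, heS1.trans (by nlinarith)⟩
  have b2 : ‖co S (rh T w h₁ z Y) - co S (rh T' w' h₁' z Y')‖ ≤
      2 * (τ * t) * √e + (5 * √e + 19) * D + 4 / 3 * (κ * t + κ' * t) * oo := by
    refine g2.trans ?_
    have c1 : (5 / 2 * √e + 16 / 3) * η ≤ (5 / 2 * √e + 16 / 3) * (2 * D) := by gcongr
    have c2 : d₁ * t ≤ D := by rw [hD]; linarith
    have c3 : κ * ‖co T Y‖ * ‖bx T z Y‖ ≤ κ * t * oo := by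
      calc κ * ‖co T Y‖ * ‖bx T z Y‖ ≤ κ * oo * t := by gcongr
        _ = _ := by ring
    have c4 : κ' * ‖co T' Y'‖ * t ≤ κ' * t * oo + 5 * D := by
      calc κ' * ‖co T' Y'‖ * t ≤ κ' * (oo + 5 * D) * t := by gcongr; exact hu'.trans ho1
        _ = κ' * t * oo + (κ' * t) * (5 * D) := by ring
        _ ≤ κ' * t * oo + 1 * (5 * D) := by gcongr
        _ = _ := by ring
    have c5 : 0 ≤ √e * D := by positivity
    linarith
  have b1 : |N| * |vp T w z Y - vp T' w' z Y'| * ‖om T' w' Y'‖ ≤ |N| * s * oo + 5 * |N| * D := by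
    calc |N| * |vp T w z Y - vp T' w' z Y'| * ‖om T' w' Y'‖ ≤ |N| * s * (oo + 5 * D) := by
          gcongr
      _ = |N| * s * oo + (|N| * s) * (5 * D) := by ring
      _ ≤ |N| * s * oo + (|N| * 1) * (5 * D) := by gcongr
      _ = _ := by ring
  have b3 : |N| * ‖om T w Y - om T' w' Y'‖ ≤ 5 * |N| * D := by
    calc _ ≤ |N| * (5 * D) := by gcongr
      _ = _ := by ring
  have b4 : (5 * √e + 19) * D ≤ (5 * (Module.finrank ℝ T : ℝ) + 24) * D :=
    mul_le_mul_of_nonneg_right (by linarith) hD0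
  have b5 : 0 ≤ |N| * D := by positivity
  have b6 : 0 ≤ (5 * (Module.finrank ℝ T : ℝ) + 24) * D := by positivity
  have b7 : 0 ≤ (κ * t + κ' * t) * oo := by positivity
  change 3 / 2 * (‖ff T' w' h₁' z P' N Y'‖ + _ + _) + _ ≤ _
  linarith

end final

end Vale.Agent.P214.BPIN
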