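import Vale.Agent.P214.BPIN.Main
import Vale.Agent.P214.RG.Same

/-!
# P214, Target B, block B4-PIN: the data of the transfer from a regraphed reference

`Two.of_same`: if the graph of `wt` over `T` is the graph of `w'` over `T'` and `wt` is `C¹`-close to
`w` on `‖bx T z ·‖ ≤ 2 t`, then `Two` holds.  `hkl_k3`: the kernel `(1 - s)³₊`.
`gF_le_gFb`: comparison of the tilt energy at two centres.
-/

open Set Filter Topology MeasureTheory Metric
open scoped RealInnerProductSpace ContDiff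

set_option linter.all false

namespace Vale.Agent.P214.BPIN

open FV ODE FM BCS

variable {E : Type*} [NormedAddCommGroup E] [InnerProductSpace ℝ E] [FiniteDimensional ℝ E]

/-- projections onto graphs over the same plane, one half -/
lemma norm_co_proj_gpl_le {T : Submodule ℝ E} {A B : E →L[ℝ] E} (hA : KMS.Slope T A)
    (hB : KMS.Slope T B) (v : E) :
    ‖co (KMS.gpl T A) ((KMS.gpl T B).starProjection v)‖ ≤ ‖A - B‖ * ‖v‖ := by
  set y := (KMS.gpl T B).starProjection v with hy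
  have h1 : y ∈ KMS.gpl T B := (KMS.gpl T B).starProjection_apply_mem v
  have h2 := KMS.norm_co_gpl_le hA y
  have h3 := KMS.slp_gpl hB h1
  have h4 : KMS.slp T A y = (B - A) y := by
    rw [KMS.slp, ContinuousLinearMap.sub_apply] at h3 ⊢
    rw [sub_eq_zero] at h3
    rw [h3]; rfl
  rw [h4] at h2
  refine h2.trans (((B - A).le_opNorm y).trans ?_)
  rw [norm_sub_rev B A]
  gcongr
  exact norm_star_le _ v

/-- **projections onto graphs over the same plane** -/
lemma norm_proj_gpl_sub_le {T : Submodule ℝ E} {A B : E →L[ℝ] E} (hA : KMS.Slope T A)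
    (hB : KMS.Slope T B) :
    ‖(KMS.gpl T A).starProjection - (KMS.gpl T B).starProjection‖ ≤ 2 * ‖A - B‖ := by
  set P := (KMS.gpl T A).starProjection with hP
  set P' := (KMS.gpl T B).starProjection with hP'
  have h1 : ∀ v, ‖co (KMS.gpl T A) (P' v)‖ ≤ ‖A - B‖ * ‖v‖ := norm_co_proj_gpl_le hA hB
  have h2 : ∀ v, ‖P (co (KMS.gpl T B) v)‖ ≤ ‖A - B‖ * ‖v‖ := by
    intro v
    have h3 : ‖P (co (KMS.gpl T B) v)‖ ^ 2 ≤
        (‖A - B‖ * ‖v‖) * ‖P (co (KMS.gpl T B) v)‖ := by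
      rw [← real_inner_self_eq_norm_sq]
      have e1 : ⟪P (co (KMS.gpl T B) v), P (co (KMS.gpl T B) v)⟫ =
          ⟪v, co (KMS.gpl T B) (P (co (KMS.gpl T B) v))⟫ := by
        rw [hP, inner_star, star_self, inner_co]
      rw [e1]
      have h4 := norm_co_proj_gpl_le hB hA (P (co (KMS.gpl T B) v))
      rw [← hP, show P (P (co (KMS.gpl T B) v)) = P (co (KMS.gpl T B) v) from star_self _ _,
        norm_sub_rev] at h4
      calc _ ≤ ‖v‖ * ‖co (KMS.gpl T B) (P (co (KMS.gpl T B) v))‖ := real_inner_le_norm _ _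
        _ ≤ ‖v‖ * (‖A - B‖ * ‖P (co (KMS.gpl T B) v)‖) := by gcongr
        _ = _ := by ring
    rcases (norm_nonneg (P (co (KMS.gpl T B) v))).eq_or_lt with h | h
    · rw [← h]; positivity
    · rw [sq] at h3
      exact le_of_mul_le_mul_right h3 h
  refine ContinuousLinearMap.opNorm_le_bound _ (by positivity) fun v => ?_
  have e1 : (P - P') v = P (co (KMS.gpl T B) v) - co (KMS.gpl T A) (P' v) := by
    rw [co_apply, co_apply, map_sub]
    show P v - P' v = P v - P (P' v) - (P' v - P (P' v))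
    abel
  rw [e1]
  calc _ ≤ ‖P (co (KMS.gpl T B) v)‖ + ‖co (KMS.gpl T A) (P' v)‖ := norm_sub_le _ _
    _ ≤ ‖A - B‖ * ‖v‖ + ‖A - B‖ * ‖v‖ := add_le_add (h2 v) (h1 v)
    _ = _ := by ring

variable [MeasurableSpace E] [BorelSpace E]

/-- a reference in the sense of `FM` is one in the sense of `KMS` -/
lemma kms_of_ref {T : Submodule ℝ E} {w : E → E} {ε κ : ℝ} (hw : Ref T w ε κ) : KMS.Ref T w :=
  ⟨hw.smooth, fun y => (hw.base y).symm,
    fun y => (Submodule.starProjection_apply_eq_zero_iff T).1 (hw.perp y)⟩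

variable {T T' : Submodule ℝ E} {w w' wt : E → E} {ε κ h₁ ε' κ' : ℝ} {z : E} {t d₀ δ₁ τ s : ℝ}

/-- **the data of the transfer from a regraphed reference** -/
theorem Two.of_same (hw : Ref T w ε κ) (hw' : Ref T' w' ε' κ') (hε' : ε' ≤ 1 / 16)
    (hS : RG.Same T wt T' w') (ht : 0 < t)
    (h0 : ∀ y, ‖bx T z y‖ ≤ 2 * t → ‖w y - wt y‖ ≤ d₀)
    (h1 : ∀ y, ‖bx T z y‖ ≤ 2 * t → ‖fderiv ℝ w y - fderiv ℝ wt y‖ ≤ δ₁)
    (hτ0 : 0 ≤ τ) (hτ : ‖T.starProjection - T'.starProjection‖ ≤ τ)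
    (sm : d₀ + 4 * t * δ₁ + τ * t ≤ t / 16)
    (hz : ‖w z - co T z‖ ≤ t / 32) (hz' : ‖w' z - co T' z‖ ≤ t / 32)
    (hκ : κ * t ≤ 1) (hκ' : κ' * t ≤ 1) (hs1 : s ≤ 1)
    (hs : ∀ Y, ‖bx T z Y‖ ≤ t → ‖fderiv ℝ w Y‖ ^ 2 ≤ s)
    (hs' : ∀ Y, ‖bx T' z Y‖ ≤ t → ‖fderiv ℝ w' Y‖ ^ 2 ≤ s) :
    Two T T' w w' κ h₁ κ' z t d₀ (2 * δ₁) τ s := by
  have key : ∀ Y, ‖bx T' z Y‖ ≤ t → ‖bx T z (ftp T' w' Y)‖ ≤ 2 * t := by
    intro Y hY
    have e1 : ftp T' w' Y - z = bx T' z Y + (w' Y - w' z) + (w' z - co T' z) := by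
      rw [bx_eq, co_apply]
      unfold ftp
      abel
    have e2 := norm_star_sub_le hw' Y z
    rw [← bx_eq] at e2
    have he0 := hw'.eps_nonneg
    have e3 : bx T z (ftp T' w' Y) = T.starProjection (ftp T' w' Y - z) := by
      rw [bx_eq, map_sub]
    rw [e3]
    refine (norm_star_le T _).trans ?_
    rw [e1]
    calc _ ≤ ‖bx T' z Y‖ + ‖w' Y - w' z‖ + ‖w' z - co T' z‖ :=
          (norm_add_le _ _).trans (by gcongr; exact norm_add_le _ _)
      _ ≤ t + 1 / 16 * t + t / 32 := by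
          gcongr
          exact e2.trans (by gcongr)
      _ ≤ 2 * t := by linarith
  have hrel : ∀ Y, KMS.rel T wt (ftp T' w' Y) = 0 := fun Y => by
    rw [hS.iff]
    unfold KMS.rel
    rw [co_ftp hw']
    have : w' (ftp T' w' Y) = w' Y := by
      rw [← hw'.base, star_ftp hw', hw'.base]
    rw [this, sub_self]
  refine
    { t0 := ht
      hd₀ := fun Y hY => ?_
      hd₁ := fun Y hY => ?_
      hτ0 := hτ0
      hτ := fun v => ((T.starProjection - T'.starProjection).le_opNorm v).trans (by gcongr)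
      sm := by linarith
      hz := hz
      hz' := hz'
      hκ := hκ
      hκ' := hκ'
      hs1 := hs1
      hs := hs
      hs' := hs' }
  · have e1 : co T (ftp T' w' Y) = wt (ftp T' w' Y) := sub_eq_zero.1 (hrel Y)
    rw [e1, norm_sub_rev]
    exact h0 _ (key Y hY)
  · have e1 : PS T' w' Y = PS T wt (ftp T' w' Y) := by
      rw [hS.PS_eq (hrel Y), ← hw'.PS_base (ftp T' w' Y), star_ftp hw', hw'.PS_base]
    rw [e1]
    have e2 := norm_proj_gpl_sub_le ((kms_of_ref hw).slope (ftp T' w' Y))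
      (hS.l.slope (ftp T' w' Y))
    refine le_trans ?_ (e2.trans ?_)
    · exact le_rfl
    · gcongr
      exact h1 _ (key Y hY)

/-- the kernel `(1 - s)³₊` is bounded below -/
lemma hkl_k3 : ∀ s, 0 ≤ s → s ≤ 9 / 16 → 1 ≤ 32 * ODEW.k3 s := by
  intro s h0 h1
  rw [ODEW.k3_eq (by linarith)]
  have h2 : (7 / 16 : ℝ) ≤ 1 - s := by linarith
  have h3 : (7 / 16 : ℝ) ^ 3 ≤ (1 - s) ^ 3 := by gcongr
  norm_num at h3
  linarith

variable {m : ℕ} {G : Set E} {h : ℝ} {ν : Measure E} {P : E → E →L[ℝ] E} {z' : E}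
  {k k' K : ℝ → ℝ} {B : ℝ}

/-- comparison of the tilt energy at two centres -/
theorem gF_le_gFb (H : Adm T w ε κ h₁) (hC : CylF m T w h₁ G h ν P) (hk : ODEW.KB k k' K B)
    (ht : 0 < t) (hG : BallIn T G z (3 * t)) (hG' : BallIn T G z' t)
    (hzz : ‖T.starProjection z' - T.starProjection z‖ ≤ t / 8) :
    gF m T w z' K P ν t ≤ 3 ^ m * B ^ 2 * gF m T w z K P ν (3 * t) := by
  haveI := hC.fin
  have hB1 := hk.one
  have hB0 : 0 ≤ B := by linarith
  have h3t : 0 < 3 * t := by positivity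
  have hKc := hk.kern.pK.continuous
  have i1 : Integrable (fun Y => K (aX T w z' Y / t ^ 2) * eP T w P Y) ν :=
    hC.intg H (hC.gd_eP H ht.le hG') hKc hk.kern.pK.zero ht le_rfl
  have i2 : Integrable (fun Y => K (aX T w z Y / (3 * t) ^ 2) * eP T w P Y) ν :=
    hC.intg H (hC.gd_eP H h3t.le hG) hKc hk.kern.pK.zero h3t le_rfl
  have key : ∀ᵐ Y ∂ν, K (aX T w z' Y / t ^ 2) * eP T w P Y ≤
      B ^ 2 * (K (aX T w z Y / (3 * t) ^ 2) * eP T w P Y) := by
    filter_upwards [hC.eP_nonneg] with Y hY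
    rw [← mul_assoc]
    refine mul_le_mul_of_nonneg_right ?_ hY
    by_cases hlt : aX T w z' Y < t ^ 2
    · have h1 : ‖bx T z' Y‖ ≤ t := by
        unfold aX XX at hlt
        exact (lt_of_pow_lt_pow_left₀ 2 ht.le hlt).le
      have h2 : ‖bx T z Y‖ ≤ 9 / 8 * t := by
        have e1 : bx T z Y = bx T z' Y + (T.starProjection z' - T.starProjection z) := by
          rw [bx_eq, bx_eq]; abel
        rw [e1]
        exact (norm_add_le _ _).trans (by linarith)
      have h3 : aX T w z Y / (3 * t) ^ 2 < 1 / 4 := by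
        rw [div_lt_iff₀ (by positivity)]
        unfold aX XX
        calc ‖bx T z Y‖ ^ 2 ≤ (9 / 8 * t) ^ 2 := by gcongr
          _ < _ := by nlinarith [sq_pos_of_pos ht]
      have h4 := hk.Klow _ (div_nonneg (aX_nonneg Y) (by positivity)) h3
      have h5 := hk.KB (aX T w z' Y / t ^ 2) (div_nonneg (aX_nonneg Y) (by positivity))
      calc K (aX T w z' Y / t ^ 2) ≤ B * 1 := by rw [mul_one]; exact h5
        _ ≤ B * (B * K (aX T w z Y / (3 * t) ^ 2)) := by gcongr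
        _ = _ := by ring
    · have h1 : K (aX T w z' Y / t ^ 2) = 0 := hk.kern.pK.zero _ (by
        rw [le_div_iff₀ (by positivity), one_mul]; exact not_lt.1 hlt)
      rw [h1]
      have := hk.kern.K_nonneg (aX T w z Y / (3 * t) ^ 2)
      positivity
  have h1 := integral_mono_ae i1 (i2.const_mul (B ^ 2)) key
  rw [integral_const_mul] at h1
  unfold gF kI
  have z2 : t ^ (2 - (m : ℤ)) ≤ 3 ^ m * (3 * t) ^ (2 - (m : ℤ)) := by
    rw [mul_zpow, ← mul_assoc]
    have e1 : (3 : ℝ) ^ m * 3 ^ (2 - (m : ℤ)) = 9 := by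
      rw [← zpow_natCast, ← zpow_add₀ (by norm_num : (3:ℝ) ≠ 0)]
      rw [show (m : ℤ) + (2 - m) = 2 by ring]
      norm_num
    rw [e1]
    have : 0 ≤ t ^ (2 - (m : ℤ)) := by positivity
    linarith
  have h0 : 0 ≤ ∫ Y, K (aX T w z Y / (3 * t) ^ 2) * eP T w P Y ∂ν := by
    refine integral_nonneg_of_ae ?_
    filter_upwards [hC.eP_nonneg] with Y hY
    exact mul_nonneg (hk.kern.K_nonneg _) hY
  have ht0 : 0 ≤ t ^ (2 - (m : ℤ)) := by positivity
  calc _ ≤ t ^ (2 - (m : ℤ)) * (B ^ 2 * ∫ Y, K (aX T w z Y / (3 * t) ^ 2) * eP T w P Y ∂ν) := by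
        gcongr
    _ ≤ (3 ^ m * (3 * t) ^ (2 - (m : ℤ))) *
        (B ^ 2 * ∫ Y, K (aX T w z Y / (3 * t) ^ 2) * eP T w P Y ∂ν) := by gcongr
    _ = _ := by ring

end Vale.Agent.P214.BPIN
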